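import Vale.Agent.P277.H884.G.GermG
import Vale.Agent.P277.H335.K.ChainK
import Vale.Agent.P277.H29.PH.Dc

/-!
# P277, (T7): the generic germ of a wedge centred in a flipped surface, with the orders of the local
equations of the exceptional hypersurfaces
-/

open scoped Manifold ContDiff Topology
open Vale.Agent.P272.K Vale.Agent.P285.H281.FD Vale.Agent.P267.H175 Set Filter Metric

noncomputable section

namespace Vale.Agent.P277.H335.MM

open Vale.Agent.P277 Vale.Agent.P277.T2 Vale.Agent.P277.H335 Vale.Agent.P277.H615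
open Vale.Agent.P277.H19 (exists_max_pow analyticAt_det det_fderiv_comp)
open Vale.Agent.P277.H884.N (exists_notMem bl_eq_self)
open Vale.Agent.P277.H335.KK

section

variable {Y : Type} [TopologicalSpace Y] [ChartedSpace (Cm 4) Y] [IsManifold 𝓘(ℂ, Cm 4) ω Y]

/-- local equations are local equations at the nearby points -/
theorem isLEq_eventually {G : Set Y} {y : Y} {ζ : Y → ℂ} (h : IsLEq G y ζ) :
    ∀ᶠ y' in 𝓝 y, IsLEq G y' ζ := by
  have hh : PH.HolF 4 ζ y := fun e he => (h.2 e he).1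
  set e := chartAt (Cm 4) y with hedef
  have he : At e y := ⟨chart_mem_atlas _ _, mem_chart_source _ _⟩
  obtain ⟨h1, h2⟩ := h.2 e he
  have hd : ∀ᶠ y' in 𝓝 y, ζ y' = 0 → fderiv ℂ (fun z => ζ (e.symm z)) (e y') ≠ 0 := by
    by_cases h0 : ζ y = 0
    · exact ((e.continuousAt he.2).eventually
        (h1.fderiv.continuousAt.eventually_ne (h2 h0))).mono fun y' hy' _ => hy'
    · have hc : ContinuousAt ζ y := by
        have h3 : ContinuousAt (fun z => ζ (e.symm z)) (e y) := h1.continuousAt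
        have h4 : ContinuousAt (fun y' => ζ (e.symm (e y'))) y :=
          ContinuousAt.comp (g := fun z => ζ (e.symm z)) (f := e) h3 (e.continuousAt he.2)
        refine h4.congr ?_
        filter_upwards [e.open_source.mem_nhds he.2] with y' hy'
        rw [e.left_inv hy']
      exact (hc.eventually_ne h0).mono fun y' hy' h => (hy' h).elim
  filter_upwards [PH.HolF.eventually hh, h.1.eventually_nhds, hd, e.open_source.mem_nhds he.2] with
    y' k1 k2 k3 k4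
  refine ⟨k2, fun e' he' => ⟨k1 e' he', fun h0 h5 => k3 h0 ?_⟩⟩
  have he1 : At e y' := ⟨he.1, k4⟩
  have h6 : (fun z => ζ (e.symm z)) =ᶠ[𝓝 (e y')] fun z => ζ (e'.symm (e' (e.symm z))) := by
    have h7 : ContinuousAt e.symm (e y') := e.continuousAt_symm (e.map_source k4)
    have h8 : ∀ᶠ z in 𝓝 (e y'), e.symm z ∈ e'.source := h7.eventually_mem (by
      rw [e.left_inv k4]; exact e'.open_source.mem_nhds he'.2)
    filter_upwards [h8] with z hz
    rw [e'.left_inv hz]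
  have h9 : AnalyticAt ℂ (fun z => e' (e.symm z)) (e y') := PH.chg_analyticAt he' he1
  have h10 : e' (e.symm (e y')) = e' y' := by rw [e.left_inv k4]
  have h11 : DifferentiableAt ℂ (fun z => ζ (e'.symm z)) (e' (e.symm (e y'))) := by
    rw [h10]; exact (k1 e' he').differentiableAt
  rw [h6.fderiv_eq, fderiv_fun_comp (g := fun z => ζ (e'.symm z)) (f := fun z => e' (e.symm z))
    (e y') h11 h9.differentiableAt, h10, h5, ContinuousLinearMap.zero_comp]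

end

variable {Y : Type} [TopologicalSpace Y] [ChartedSpace (Cm 4) Y]
  [T2Space Y] [CompactSpace Y] [IsManifold 𝓘(ℂ, Cm 4) ω Y]

/-- The generic germ of a wedge centred in `S`; `μ l` is the order of the local equation of `G l`
along the lift. -/
theorem exists_germM (hTA : T2.StTAc) (hTD : StTD) (hDis : T2.StDis) {k : ℕ} {V X : CSp}
    {vV : Y → V.pt} {D : Set Y} {M : Fin k → Bd Y} {m : Fin k → ℕ}
    {L : Fin k → Bd X.pt} {O : Set Y} {v : Y → X.pt} {P Q : Fin k → ℕ}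
    {T : ∀ e, (L e).ι → (((Bd.can 4 Y).pow (m e)).mul (M e)).ι → Y → ℂ} {ρ : Fin k → ℝ}
    {S S₀ : Set X.pt} {Bad : Set Y} {r : ℕ} {G : Fin r → Set Y} {a : Fin r → ℝ} (hk : 1 ≤ k)
    (hM : ∀ e, IsLB 4 (M e))
    (htw : ∀ e, Tw0 vV D (((Bd.can 4 Y).pow (m e)).mul (M e)) X (L e) O v (P e) (Q e) (T e))
    (hlb : ∀ e, IsLBx X (L e))
    (hch : ChainK (fun e => ((Bd.can 4 Y).pow (m e)).mul (M e)) X L O v T (fun e => ρ e / Q e)
      S₀ G a)
    (hSan : IsAn X univ S) (hSO : S ⊆ (v '' O)ᶜ) (hS1 : ¬ DimLe X 1 S)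
    (hs : DimLe X 1 {x | x ∈ S ∧ ¬ IsReg 4 X x}) (hSS : S ⊆ S₀)
    {Cr : Y → X.pt → Prop} (hCr : ∀ y x, Cr y x → y ∈ O ∧ v y = x)
    (hBP : DimLe X 1 {x | T3.BadPt S₀ Cr Bad x})
    {s : ℕ} {β : Fin s → Fin k}
    {sg : ∀ i, (M (β i)).ι → Y → ℂ} (hsec : ∀ i, IsSec 4 (M (β i)) (sg i))
    (hsg : ∀ i a y, y ∈ (M (β i)).U a → ∃ᶠ y' in 𝓝 y, sg i a y' ≠ 0) :
    ∃ (W : Set (Cm 4)) (w₂ : Cm 4) (φ : Cm 4 → X.pt) (γ : Cm 4 → Y) (ch : Chart 4 Y)
      (μ : ∀ e, (M e).ι) (i : ∀ e, (L e).ι) (x : Fin k → ℚ) (J : ℕ) (κ : Fin k → ℤ)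
      (g : Fin s → ℕ) (q : Fin r → ℕ) (ζ : Fin r → Y → ℂ), GermV O v T S W w₂ φ γ ch μ i x J ∧
      (∀ U ⊆ W, IsOpen U → (∃ w ∈ U, w 0 = 0) →
        ∃ w ∈ U, w 0 = 0 ∧ (γ w ∉ Bad ∨ (fderiv ℂ (fun w => ch (γ w)) w).det ≠ 0)) ∧
      (∀ e, x e = Q e * (m e * (1 - J) - κ e)) ∧
      (∀ e, ∀ χ : Chart 4 Y → Cm 4 → Matrix (Fin 4) (Fin 4) ℂ, IsKahler χ → Nef χ (M e) →
        0 ≤ κ e) ∧
      (∀ a, ∃ Φg, AnalyticAt ℂ Φg w₂ ∧ Φg w₂ ≠ 0 ∧
        ∀ᶠ w in 𝓝 w₂, sg a (μ (β a)) (γ w) = w 0 ^ g a * Φg w) ∧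
      ∑ l, a l * q l < ∑ e, ρ e / Q e * x e ∧
      ∀ l, IsLEq (G l) (γ w₂) (ζ l) ∧ ∃ Φq, AnalyticAt ℂ Φq w₂ ∧ Φq w₂ ≠ 0 ∧
        ∀ᶠ w in 𝓝 w₂, ζ l (γ w) = w 0 ^ q l * Φq w := by
  have hv : IsOpenEmb X O v := (htw ⟨0, hk⟩).emb
  have hO : DimLe X 2 (v '' O)ᶜ := (htw ⟨0, hk⟩).dim
  obtain ⟨ξ, r', hr, hξ, hWo, h0W, hφ, hφS, hφd⟩ := exists_wedge hTA hv hO hSan hSO hS1 hs
  set φ : Cm 4 → X.pt := fun w => ξ (bl w) with hφdef
  set WB : Set (Cm 4) := {w : Cm 4 | bl w ∈ ball (0 : Cm 4) r'} with hWB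
  choose i hi using fun e => (hlb e).cover (φ 0)
  set W' : Set (Cm 4) := {w | w ∈ WB ∧ φ w ∈ ⋂ e, (L e).U (i e)} with hW'
  have hW'o : IsOpen W' := by
    have h1 : ContinuousOn φ WB := fun w hw => (hφ w hw).1.continuousWithinAt
    exact h1.isOpen_inter_preimage hWo (isOpen_iInter_of_finite fun e => (hlb e).isOpen (i e))
  have hW'B : ∀ w ∈ W', w ∈ WB := fun w hw => hw.1
  have hcl' : W' ⊆ closure {w | w ∈ W' ∧ φ w ∈ v '' O} :=
    subset_closure_of_open hW'o (fun w hw => hw.1) hφd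
  have hW'i : ∀ w ∈ W', ∀ e, φ w ∈ (L e).U (i e) := fun w hw e => mem_iInter.1 hw.2 e
  obtain ⟨w₁, hw₁, hw₁0, W₁, γ, ch, cc, x, hW₁, hw₁W, hW₁W, hγ, hO1, hO2, hT, b₀,
    ⟨ζ, q, A', hζ, hA', hA'f, hζA, hbs⟩, -, hpos⟩ :=
    hch W' 0 φ i hW'o ⟨h0W, mem_iInter.2 hi⟩ rfl (fun w hw => hφ w (hW'B w hw)) hcl' hW'i
  have hpos := hpos (fun w hw hw0 => hSS (hφS w (hW'B w hw) hw0))
  have hdW₁ : W₁ ⊆ closure {w | w ∈ W₁ ∧ φ w ∈ v '' O} :=
    subset_closure_of_open hW₁ hW₁W hcl'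
  -- a point which is not bad
  have hstar : ∀ U ⊆ W₁, IsOpen U → (∃ w ∈ U, w 0 = 0) →
      ∃ w ∈ U, w 0 = 0 ∧ (γ w ∉ Bad ∨ (fderiv ℂ (fun w => ch (γ w)) w).det ≠ 0) := by
    rintro U hUW hU ⟨wa, hwaU, hwa0⟩
    let ins : Cm 4 → Cm 4 := fun z => ![z 0, wa 1, z 2, z 3]
    have hins : Continuous ins := by
      refine continuous_pi fun i => ?_
      fin_cases i
      · exact continuous_apply 0
      · exact continuous_const
      · exact continuous_apply 2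
      · exact continuous_apply 3
    have hblins : ∀ z : Cm 4, z 0 = 0 → z 1 = 0 → bl (ins z) = z := by
      intro z h0 h1
      ext i
      fin_cases i
      · rfl
      · show z 0 * wa 1 = z 1
        rw [h0, h1, zero_mul]
      · rfl
      · rfl
    have hwa' : ins (bl wa) = wa := by
      ext i
      fin_cases i
      · rfl
      · rfl
      · rfl
      · rfl
    have hbwa0 : (bl wa) 0 = 0 := hwa0
    have hbwa1 : (bl wa) 1 = 0 := by
      show wa 0 * wa 1 = 0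
      rw [hwa0, zero_mul]
    obtain ⟨z, hz, hz0, hz1, hzB⟩ := exists_notMem hξ hBP (U := ball (0 : Cm 4) r' ∩ ins ⁻¹' U)
      (isOpen_ball.inter (hU.preimage hins)) inter_subset_left
      (w := bl wa) ⟨hW'B _ (hW₁W (hUW hwaU)), by show ins (bl wa) ∈ U; rw [hwa']; exact hwaU⟩
      hbwa0 hbwa1
    by_contra hcon
    push Not at hcon
    refine hzB ⟨ξ, r', U, ins z, γ, ch, hr, hξ.inj, hξ.isOpenMap, hξ.hol, fun z hz hz0 hz1 => ?_,
      hU, hz.2, hz0, by rw [hblins z hz0 hz1], fun w hw => ⟨hW'B _ (hW₁W (hUW hw)), ?_,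
        (hγ w (hUW hw)).1, (hγ w (hUW hw)).2.1, (hγ w (hUW hw)).2.2.1, fun hw0 => hcon w hw hw0⟩⟩
    · have h1 := hφS z (by show bl z ∈ ball (0 : Cm 4) r'; rw [bl_eq_self hz0 hz1]; exact hz) hz0
      rw [bl_eq_self hz0 hz1] at h1
      exact hSS h1
    · intro y hy
      obtain ⟨h1, h2⟩ := hCr y _ hy
      have h3 : γ w ∈ O := hO1 w (hUW hw) ⟨y, h1, h2⟩
      exact hv.inj h3 h1 (by rw [hO2 w (hUW hw) h3, h2])
  obtain ⟨g1, g2, g3, g4⟩ := hγ w₁ hw₁W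
  have hW₁n := hW₁.mem_nhds hw₁W
  -- the orders in a common chart
  have hord : ∀ e, HasOrd {w | γ w ∈ O} w₁ (fun w => T e (i e) (ch, (cc e).2) (γ w)) (x e) := by
    intro e
    refine RR.hasOrd_change (hM e) (htw e).lb (htw e).iso hw₁0 g1 (φ := φ) ?_ ?_
      (e := (cc e).1) (g4 e).1 g2 (g4 e).2 g3 (hT e)
    · filter_upwards [hW₁n] with w hw using hW'i w (hW₁W hw) e
    · filter_upwards [hW₁n] with w hw using hO2 w hw
  -- the Jacobian
  have hdet : ∀ w ∈ W₁, φ w ∈ v '' O → (fderiv ℂ (fun w => ch (γ w)) w).det ≠ 0 := by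
    intro w hw hwO
    have hwB : bl w ∈ ball (0 : Cm 4) r' := hW'B w (hW₁W hw)
    have hw0 : w 0 ≠ 0 := fun h0 => (hSO (hφS w hwB h0)) hwO
    set y₀ : Y := γ w with hy₀
    have h1 : ∀ᶠ z in 𝓝 w, γ z = hv.inv y₀ (ξ (bl z)) := by
      filter_upwards [hW₁.mem_nhds hw, (hφ w hwB).1.eventually_mem
        (hv.isOpen_image.mem_nhds hwO)] with z hz hzO
      have h2 := hO1 z hz hzO
      have h3 := hO2 z hz h2
      have h4 : ξ (bl z) = v (γ z) := h3.symm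
      rw [h4, hv.inv_apply y₀ h2]
    have heq : (fun w => ch (γ w)) =ᶠ[𝓝 w] fun w => ch (hv.inv y₀ (ξ (bl w))) := by
      filter_upwards [h1] with z hz
      rw [hz]
    have hat : At ch (hv.inv y₀ (ξ (bl w))) := by
      rw [← h1.self_of_nhds]; exact (hγ w hw).2.1
    have hρan := hξ.rho_analyticAt hv y₀ hwB hwO hat
    have hJw : (fderiv ℂ (fun w => ch (γ w)) w).det =
        (fderiv ℂ (fun w => ch (hv.inv y₀ (ξ w))) (bl w)).det * w 0 := by
      rw [heq.fderiv_eq, ← H19.det_fderiv_bl w]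
      exact det_fderiv_comp (G := fun w => ch (hv.inv y₀ (ξ w))) (F := bl) hρan.differentiableAt
        (H19.analyticAt_bl w).differentiableAt
    rw [hJw]
    exact mul_ne_zero (hξ.rho_det_ne_zero hv y₀ hwB hwO hat) hw0
  have hJz : ¬ ∀ᶠ w in 𝓝 w₁, (fderiv ℂ (fun w => ch (γ w)) w).det = 0 := by
    intro hz
    obtain ⟨w, ⟨h1, h2⟩, h3, h4⟩ := mem_closure_iff_nhds.1 (hdW₁ hw₁W) _
      (hz.and (hW₁.mem_nhds hw₁W))
    exact hdet w h3 h4 h1
  obtain ⟨J, FJ, hFJ, hJFJ, hFJ0⟩ := exists_ord (analyticAt_det g3) hw₁0 hJz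
  -- the sections
  have hsga : ∀ a, AnalyticAt ℂ (fun w => sg a ((cc (β a)).2) (γ w)) w₁ := by
    intro a
    exact analyticAt_comp_chart g1 g2 g3
      ((hsec a).holo _ ch _ g2 (g4 (β a)).2).analyticAt
  have hsgz : ∀ a, ¬ ∀ᶠ w in 𝓝 w₁, sg a ((cc (β a)).2) (γ w) = 0 := by
    intro a hz
    obtain ⟨w, ⟨h1, h2⟩, h3, h4⟩ := mem_closure_iff_nhds.1 (hdW₁ hw₁W) _
      (hz.eventually_nhds.and (hW₁.mem_nhds hw₁W))
    have h5 := hdet w h3 h4
    obtain ⟨k1, k2, k3, k4⟩ := hγ w h3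
    have hinj : Function.Injective (fderiv ℂ (fun w => ch (γ w)) w) := by
      have h1 : LinearMap.det (fderiv ℂ (fun w => ch (γ w)) w : Cm 4 →ₗ[ℂ] Cm 4) ≠ 0 := h5
      exact (LinearMap.equivOfDetNeZero _ h1).injective
    obtain ⟨θ, hθ, hθs, -, -⟩ := H73.exists_localInv k3 hinj
    -- near `γ w` the section vanishes
    have h6 : ∀ᶠ y' in 𝓝 (γ w), sg a ((cc (β a)).2) y' = 0 := by
      have h7 : Tendsto (fun y' => θ.symm (ch y')) (𝓝 (γ w)) (𝓝 w) := by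
        have h8 : ContinuousAt ch (γ w) := ch.continuousAt k2.2
        have h9 : ch (γ w) ∈ θ.target := by
          have := θ.map_source hθs
          rwa [hθ] at this
        have h10 : ContinuousAt θ.symm (ch (γ w)) := θ.continuousAt_symm h9
        have h11 : Tendsto (fun y' => θ.symm (ch y')) (𝓝 (γ w)) (𝓝 (θ.symm (ch (γ w)))) :=
          (ContinuousAt.comp (g := θ.symm) (f := ch) h10 h8)
        have h12 : θ.symm (ch (γ w)) = w := by
          have := θ.left_inv hθs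
          rwa [hθ] at this
        rwa [h12] at h11
      have h9 : ∀ᶠ y' in 𝓝 (γ w), ch y' ∈ θ.target := by
        refine (ch.continuousAt k2.2).eventually_mem (θ.open_target.mem_nhds ?_)
        have := θ.map_source hθs
        rwa [hθ] at this
      filter_upwards [h7.eventually h1, h7.eventually (hW₁.mem_nhds h3), h9,
        ch.open_source.mem_nhds k2.2] with y' m1 m2 m3 m4
      have m5 : ch (γ (θ.symm (ch y'))) = ch y' := by
        have := θ.right_inv m3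
        rwa [hθ] at this
      have m6 : γ (θ.symm (ch y')) = y' := ch.injOn (hγ _ m2).2.1.2 m4 m5
      rw [m6] at m1
      exact m1
    exact (hsg a _ _ (k4 (β a)).2) (h6.mono fun y' hy' => by simpa using hy')
  choose g Fg hFg hgFg hFg0 using fun a => exists_ord (hsga a) hw₁0 (hsgz a)
  -- a generic point
  have hfr := exists_unit'' hw₁0 hord (κ := Option (Fin s) ⊕ Fin r)
    (F := fun o => Sum.elim (fun o => o.elim FJ Fg) A' o) (fun o => by
      rcases o with (_ | a) | l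
      · exact hFJ
      · exact hFg a
      · exact hA' l) (fun o => by
      rcases o with (_ | a) | l
      · exact hFJ0
      · exact hFg0 a
      · exact hA'f l)
  have hev : ∀ᶠ w in 𝓝 w₁, w ∈ W₁ ∧ (∀ e, w 0 = 0 →
      HasOrd {w | γ w ∈ O} w (fun w => T e (i e) (ch, (cc e).2) (γ w)) (x e)) ∧
      AnalyticAt ℂ FJ w ∧ (∀ᶠ z in 𝓝 w, (fderiv ℂ (fun w => ch (γ w)) z).det = z 0 ^ J * FJ z) ∧
      (∀ a, AnalyticAt ℂ (Fg a) w ∧
        ∀ᶠ z in 𝓝 w, sg a ((cc (β a)).2) (γ z) = z 0 ^ g a * Fg a z) ∧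
      ∀ l, IsLEq (G l) (γ w) (ζ l) ∧ AnalyticAt ℂ (A' l) w ∧
        ∀ᶠ z in 𝓝 w, ζ l (γ z) = z 0 ^ q l * A' l z := by
    refine (hW₁.eventually_mem hw₁W).and (Filter.Eventually.and ?_
      (hFJ.eventually_analyticAt.and (hJFJ.eventually_nhds.and (Filter.Eventually.and ?_ ?_))))
    · rw [eventually_all]
      exact fun e => (hord e).eventually hw₁0
    · rw [eventually_all]
      exact fun a => (hFg a).eventually_analyticAt.and (hgFg a).eventually_nhds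
    · rw [eventually_all]
      exact fun l => (g1.eventually (isLEq_eventually (hζ l))).and
        ((hA' l).eventually_analyticAt.and (hζA l).eventually_nhds)
  obtain ⟨W₂, hW₂s, hW₂, hw₁W₂⟩ := _root_.mem_nhds_iff.1 hev
  obtain ⟨w₂, ⟨hw₂0, hFne, K, hK, hdat⟩, hw₂W⟩ := (hfr.and_eventually (hW₂.mem_nhds hw₁W₂)).exists
  choose ν Φ hν hΦ hΦ0 hrel using hdat
  have hw₂W₁ : w₂ ∈ W₁ := (hW₂s hw₂W).1
  obtain ⟨k1, k2, k3, k4⟩ := hγ w₂ hw₂W₁
  obtain ⟨-, -, m3, m4, m5, m6⟩ := hW₂s hw₂W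
  have hκ : ∀ e, ∃ κ : ℤ, ν e = Q e * K * (m e * (1 - J) - κ) ∧
      ∀ χ : Chart 4 Y → Cm 4 → Matrix (Fin 4) (Fin 4) ℂ, IsKahler χ → Nef χ (M e) → 0 ≤ κ := by
    intro e
    refine txV hTD hDis hv hO hSO hξ hφS (hM e) (htw e).lb (htw e).hQ (htw e).iso
      (hW'B _ (hW₁W hw₂W₁)) hw₂0 k1 k2 (k4 e).2 k3 ?_ (hW'i w₂ (hW₁W hw₂W₁) e) hK (hΦ e).continuousAt
      (hΦ0 e) (hrel e) m3.continuousAt (hFne (Sum.inl none)) m4
    filter_upwards [hW₁.mem_nhds hw₂W₁] with w hw hwO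
    exact ⟨hO1 w hw hwO, hO2 w hw (hO1 w hw hwO)⟩
  choose κ hκ1 hκ2 using hκ
  refine ⟨W₂, w₂, φ, γ, ch, fun e => (cc e).2, i, x, J, κ, g, q, ζ, ⟨hW₂, hw₂W, hw₂0,
    fun w hw => hφ w (hW'B w (hW₁W (hW₂s hw).1)),
    fun w hw hw0 => hφS w (hW'B w (hW₁W (hW₂s hw).1)) hw0,
    subset_closure_of_open hW₂ (fun w hw => (hW₂s hw).1) hdW₁,
    fun w hw => ⟨(hγ w (hW₂s hw).1).1, (hγ w (hW₂s hw).1).2.1, (hγ w (hW₂s hw).1).2.2.1⟩,
    fun w hw e => ((hγ w (hW₂s hw).1).2.2.2 e).2, fun w hw => hW'i w (hW₁W (hW₂s hw).1),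
    fun w hw => hO1 w (hW₂s hw).1, fun w hw => hO2 w (hW₂s hw).1,
    fun w hw hw0 e => (hW₂s hw).2.1 e hw0, ⟨FJ, m3, hFne (Sum.inl none), m4⟩,
    ⟨K, hK, fun e => ⟨ν e, Φ e, hν e, hΦ e, hΦ0 e, hrel e⟩⟩⟩,
    fun U hU => hstar U (hU.trans fun w hw => (hW₂s hw).1), fun e => ?_, hκ2,
    fun a => ⟨Fg a, (m5 a).1, hFne (Sum.inl (some a)), (m5 a).2⟩, by rw [← hbs]; exact hpos,
    fun l => ⟨(m6 l).1, A' l, (m6 l).2.1, hFne (Sum.inr l), (m6 l).2.2⟩⟩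
  have h1 : (K : ℚ) ≠ 0 := by exact_mod_cast (Nat.one_le_iff_ne_zero.1 hK)
  have h2 : x e * K = Q e * (m e * (1 - J) - κ e) * K := by
    rw [← hν e, hκ1 e]
    push_cast
    ring
  exact mul_right_cancel₀ h1 h2

end Vale.Agent.P277.H335.MM
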