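import Vale.Agent.P277.H615.R.GermC
import Vale.Agent.P277.H335.M.GermM
import Vale.Agent.P277.H335.K.LiftK

/-!
# P277, (T7): the places which dominate the flipped surfaces
-/

open scoped Manifold ContDiff Topology
open Vale.Agent.P272.K Vale.Agent.P285.H281.FD Vale.Agent.P267.H175 Set Filter Metric

noncomputable section

namespace Vale.Agent.P277.H335.MM

open Vale.Agent.P277 Vale.Agent.P277.T2 Vale.Agent.P277.H335 Vale.Agent.P277.H615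
open Vale.Agent.P277.H335.KK

section

variable {Y : Type} [TopologicalSpace Y] [ChartedSpace (Cm 4) Y]

/-- the other generic points -/
theorem germV_move {k : ℕ} {X : CSp} {M : Fin k → Bd Y} {m : Fin k → ℕ} {L : Fin k → Bd X.pt}
    {O : Set Y} {v : Y → X.pt}
    {T : ∀ e, (L e).ι → (((Bd.can 4 Y).pow (m e)).mul (M e)).ι → Y → ℂ} {S : Set X.pt}
    {W : Set (Cm 4)} {w₂ : Cm 4} {φ : Cm 4 → X.pt} {γ : Cm 4 → Y} {ch : Chart 4 Y}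
    {μ : ∀ e, (M e).ι} {i : ∀ e, (L e).ι} {x : Fin k → ℚ} {J : ℕ}
    (h : GermV O v T S W w₂ φ γ ch μ i x J) : ∀ᶠ w₃ in 𝓝 w₂, w₃ 0 = 0 → ∀ W' ⊆ W, IsOpen W' →
      w₃ ∈ W' → GermV O v T S W' w₃ φ γ ch μ i x J := by
  obtain ⟨FJ, hF1, hF2, hF3⟩ := h.jac
  obtain ⟨K, hK, hu⟩ := h.unit
  choose ν Φ u1 u2 u3 u4 using hu
  have h1 : ∀ᶠ w₃ in 𝓝 w₂, ∀ e, AnalyticAt ℂ (Φ e) w₃ ∧ Φ e w₃ ≠ 0 ∧
      ∀ᶠ w in 𝓝 w₃, γ w ∈ O → w 0 ≠ 0 → T e (i e) (ch, μ e) (γ w) ^ K = w 0 ^ ν e * Φ e w := by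
    rw [eventually_all]
    exact fun e => (u2 e).eventually_analyticAt.and (((u2 e).continuousAt.eventually_ne (u3 e)).and
      (u4 e).eventually_nhds)
  filter_upwards [h1, hF1.eventually_analyticAt, hF1.continuousAt.eventually_ne hF2,
    hF3.eventually_nhds] with w₃ k1 k2 k3 k4 h0 W' hW' hW'o hw₃
  exact ⟨hW'o, hw₃, h0, fun w hw => h.hol w (hW' hw), fun w hw => h.inS w (hW' hw),
    subset_closure_of_open hW'o hW' h.dense, fun w hw => h.lift w (hW' hw),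
    fun w hw => h.memN w (hW' hw), fun w hw => h.memU w (hW' hw), fun w hw => h.lift1 w (hW' hw),
    fun w hw => h.lift2 w (hW' hw), fun w hw => h.ord w (hW' hw), ⟨FJ, k2, k3, k4⟩,
    ⟨K, hK, fun e => ⟨ν e, Φ e, u1 e, (k1 e).1, (k1 e).2.1, (k1 e).2.2⟩⟩⟩

end

variable {Y : Type} [TopologicalSpace Y] [ChartedSpace (Cm 4) Y]
  [T2Space Y] [CompactSpace Y] [IsManifold 𝓘(ℂ, Cm 4) ω Y]

/-- The generic germ of a wedge centred in `S`, outside of `Bad`. -/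
theorem exists_germM' (hTA : T2.StTAc) (hTD : StTD) (hDis : T2.StDis) {k : ℕ} {V X : CSp}
    {vV : Y → V.pt} {D : Set Y} {M : Fin k → Bd Y} {m : Fin k → ℕ}
    {L : Fin k → Bd X.pt} {O : Set Y} {v : Y → X.pt} {P Q : Fin k → ℕ}
    {T : ∀ e, (L e).ι → (((Bd.can 4 Y).pow (m e)).mul (M e)).ι → Y → ℂ} {ρ : Fin k → ℝ}
    {S S₀ : Set X.pt} {Bad Bad₁ C : Set Y} {r : ℕ} {G : Fin r → Set Y} {a : Fin r → ℝ}
    {Ks : Set (Fin r)} (hk : 1 ≤ k)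
    (hM : ∀ e, IsLB 4 (M e))
    (htw : ∀ e, Tw0 vV D (((Bd.can 4 Y).pow (m e)).mul (M e)) X (L e) O v (P e) (Q e) (T e))
    (hlb : ∀ e, IsLBx X (L e))
    (hch : ChainK (fun e => ((Bd.can 4 Y).pow (m e)).mul (M e)) X L O v T (fun e => ρ e / Q e)
      S₀ G a)
    (hSan : IsAn X univ S) (hSO : S ⊆ (v '' O)ᶜ) (hS1 : ¬ DimLe X 1 S)
    (hs : DimLe X 1 {x | x ∈ S ∧ ¬ IsReg 4 X x}) (hSS : S ⊆ S₀)
    {Cr : Y → X.pt → Prop} (hCr : ∀ y x, Cr y x → y ∈ O ∧ v y = x)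
    (hBP : DimLe X 1 {x | T3.BadPt S₀ Cr Bad x})
    (hB1 : Bad₁ ⊆ Bad) (hB1c : IsClosed Bad₁) (hCc : IsClosed C) (hCB : ∀ l ∈ Ks, G l \ C ⊆ Bad)
    {s : ℕ} {β : Fin s → Fin k}
    {sg : ∀ i, (M (β i)).ι → Y → ℂ} (hsec : ∀ i, IsSec 4 (M (β i)) (sg i))
    (hsg : ∀ i a y, y ∈ (M (β i)).U a → ∃ᶠ y' in 𝓝 y, sg i a y' ≠ 0) :
    ∃ (W : Set (Cm 4)) (w₂ : Cm 4) (φ : Cm 4 → X.pt) (γ : Cm 4 → Y) (ch : Chart 4 Y)
      (μ : ∀ e, (M e).ι) (i : ∀ e, (L e).ι) (x : Fin k → ℚ) (J : ℕ) (κ : Fin k → ℤ)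
      (g : Fin s → ℕ) (q : Fin r → ℕ) (ζ : Fin r → Y → ℂ), GermV O v T S W w₂ φ γ ch μ i x J ∧
      (J = 0 ∨ (∀ w ∈ W, γ w ∉ Bad₁) ∧ ∀ l ∈ Ks, 1 ≤ q l → ∀ w ∈ W, w 0 = 0 → γ w ∈ C) ∧
      (∀ e, x e = Q e * (m e * (1 - J) - κ e)) ∧
      (∀ e, ∀ χ : Chart 4 Y → Cm 4 → Matrix (Fin 4) (Fin 4) ℂ, IsKahler χ → Nef χ (M e) →
        0 ≤ κ e) ∧
      (∀ a, ∃ Φg, AnalyticAt ℂ Φg w₂ ∧ Φg w₂ ≠ 0 ∧
        ∀ᶠ w in 𝓝 w₂, sg a (μ (β a)) (γ w) = w 0 ^ g a * Φg w) ∧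
      ∑ l, a l * q l < ∑ e, ρ e / Q e * x e ∧
      ∀ l, IsLEq (G l) (γ w₂) (ζ l) ∧ ∃ Φq, AnalyticAt ℂ Φq w₂ ∧ Φq w₂ ≠ 0 ∧
        ∀ᶠ w in 𝓝 w₂, ζ l (γ w) = w 0 ^ q l * Φq w := by
  obtain ⟨W, w₂, φ, γ, ch, μ, i, x, J, κ, g, q, ζ, hg, hst, hx, hκ, hsg', hlt, hζ⟩ :=
    exists_germM hTA hTD hDis hk hM htw hlb hch hSan hSO hS1 hs hSS hCr hBP hsec hsg
  by_cases hJ : J = 0
  · exact ⟨W, w₂, φ, γ, ch, μ, i, x, J, κ, g, q, ζ, hg, Or.inl hJ, hx, hκ, hsg', hlt, hζ⟩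
  choose Φg s1 s2 s3 using hsg'
  choose z1 Φq z2 z3 z4 using hζ
  obtain ⟨FJ, hF1, hF2, hF3⟩ := hg.jac
  have hγc : ContinuousAt γ w₂ := (hg.lift w₂ hg.mem).1
  have hev : ∀ᶠ w in 𝓝 w₂, w ∈ W ∧ (w 0 = 0 → ∀ W' ⊆ W, IsOpen W' → w ∈ W' →
        GermV O v T S W' w φ γ ch μ i x J) ∧
      (fderiv ℂ (fun w => ch (γ w)) w).det = w 0 ^ J * FJ w ∧
      (∀ a, AnalyticAt ℂ (Φg a) w ∧ Φg a w ≠ 0 ∧
        ∀ᶠ z in 𝓝 w, sg a (μ (β a)) (γ z) = z 0 ^ g a * Φg a z) ∧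
      ∀ l, IsLEq (G l) (γ w) (ζ l) ∧ AnalyticAt ℂ (Φq l) w ∧ Φq l w ≠ 0 ∧
        ∀ᶠ z in 𝓝 w, ζ l (γ z) = z 0 ^ q l * Φq l z := by
    refine (hg.isOpen.eventually_mem hg.mem).and ((germV_move hg).and (hF3.and
      (Filter.Eventually.and ?_ ?_)))
    · rw [eventually_all]
      exact fun a => (s1 a).eventually_analyticAt.and
        (((s1 a).continuousAt.eventually_ne (s2 a)).and (s3 a).eventually_nhds)
    · rw [eventually_all]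
      exact fun l => (hγc.eventually (isLEq_eventually (z1 l))).and
        ((z2 l).eventually_analyticAt.and
          (((z2 l).continuousAt.eventually_ne (z3 l)).and (z4 l).eventually_nhds))
  obtain ⟨W₀, hW₀s, hW₀, hw₂⟩ := _root_.mem_nhds_iff.1 hev
  have hd0 : ∀ w ∈ W₀, w 0 = 0 → (fderiv ℂ (fun w => ch (γ w)) w).det = 0 := by
    intro w hw hw0
    rw [(hW₀s hw).2.2.1, hw0, zero_pow hJ, zero_mul]
  obtain ⟨w₃, hw₃, hw₃0, hw₃B⟩ := hst W₀ (fun w hw => (hW₀s hw).1) hW₀ ⟨w₂, hw₂, hg.zero⟩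
  have hw₃B' : γ w₃ ∉ Bad := hw₃B.resolve_right fun h => h (hd0 w₃ hw₃ hw₃0)
  have hopen : ∀ {F : Set Y}, IsClosed F → ∀ U ⊆ W₀, IsOpen U → IsOpen {w | w ∈ U ∧ γ w ∉ F} := by
    intro F hF U hUW hU
    rw [isOpen_iff_eventually]
    rintro w ⟨h1, h2⟩
    exact (hU.eventually_mem h1).and
      ((hg.lift w (hW₀s (hUW h1)).1).1.eventually_mem (hF.isOpen_compl.mem_nhds h2))
  have hW₃o := hopen hB1c W₀ subset_rfl hW₀
  have hW₃s : {w | w ∈ W₀ ∧ γ w ∉ Bad₁} ⊆ W₀ := fun w hw => hw.1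
  have hw₃W : w₃ ∈ {w | w ∈ W₀ ∧ γ w ∉ Bad₁} := ⟨hw₃, fun h => hw₃B' (hB1 h)⟩
  obtain ⟨-, m2, -, m4, m5⟩ := hW₀s hw₃
  refine ⟨{w | w ∈ W₀ ∧ γ w ∉ Bad₁}, w₃, φ, γ, ch, μ, i, x, J, κ, g, q, ζ,
    m2 hw₃0 _ (fun w hw => (hW₀s hw.1).1) hW₃o hw₃W, Or.inr ⟨fun w hw => hw.2, ?_⟩, hx, hκ,
    fun a => ⟨Φg a, m4 a⟩, hlt, fun l => ⟨(m5 l).1, Φq l, (m5 l).2⟩⟩
  intro l hl hq w hw hw0
  by_contra hwC
  obtain ⟨w', ⟨hw'1, hw'C⟩, hw'0, hw'2⟩ := hst {w' | w' ∈ {w | w ∈ W₀ ∧ γ w ∉ Bad₁} ∧ γ w' ∉ C}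
    (fun w' hw' => (hW₀s hw'.1.1).1) (hopen hCc _ hW₃s hW₃o) ⟨w, ⟨hw, hwC⟩, hw0⟩
  have h1 : γ w' ∉ Bad := hw'2.resolve_right fun h => h (hd0 w' hw'1.1 hw'0)
  refine h1 (hCB l hl ⟨?_, hw'C⟩)
  obtain ⟨n1, -, -, n4⟩ := (hW₀s hw'1.1).2.2.2.2 l
  refine n1.1.self_of_nhds.1 ?_
  rw [n4.self_of_nhds, hw'0, zero_pow (by omega), zero_mul]

/-- The places which dominate a flipped surface `S`: the blow-up of `S` is a divisor on `Y`, or is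
centred in a surface contained in an `H b`, or in a surface contained in `C` and in a `G l` with
negative discrepancy. -/
theorem germ_bdM [Nonempty Y] (hTA : T2.StTAc) (hTD : StTD) (hDis : T2.StDis) {k s : ℕ}
    {V X : CSp} {vV : Y → V.pt} (hvV : IsOpenEmb V univ vV) (hsurj : Function.Surjective vV)
    {n : ℕ} {G : Fin n → Set Y} (hG : ∀ l, IsHyp (G l)) (hcl : ∀ l, IsClosed (G l))
    {M : Fin (k + s) → Bd Y} {m : Fin (k + s) → ℕ} (hM : ∀ e, IsLB 4 (M e))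
    (hm0 : ∀ i : Fin s, m (Fin.natAdd k i) = 0) {ρ : Fin (k + s) → ℝ} (hρ : ∀ e, 0 < ρ e)
    (hsum : ∑ e, ρ e * m e = 1)
    {χ : Chart 4 Y → Cm 4 → Matrix (Fin 4) (Fin 4) ℂ} (hχ : IsKahler χ)
    (hnef : ∀ e : Fin k, Nef χ (M (Fin.castAdd s e)))
    {H : Fin s → Type} [∀ i, TopologicalSpace (H i)] [∀ i, ConnectedSpace (H i)]
    [∀ i, ChartedSpace (Cm 3) (H i)] {ι : ∀ i, H i → Y}
    {sg : ∀ i : Fin s, (M (Fin.natAdd k i)).ι → Y → ℂ}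
    (hbd : ∀ i, T3.IsBd (ι i) (M (Fin.natAdd k i)) (sg i))
    (hdis : Pairwise fun i j => Disjoint (range (ι i)) (range (ι j)))
    (hne : ∀ i, ¬ range (ι i) ⊆ ⋃ l, G l)
    {L : Fin (k + s) → Bd X.pt} {O : Set Y} {v : Y → X.pt}
    {P Q : Fin (k + s) → ℕ}
    {T : ∀ e, (L e).ι → (((Bd.can 4 Y).pow (m e)).mul (M e)).ι → Y → ℂ}
    {S S₀ : Set X.pt} {Bad Bad₁ C : Set Y} {a : Fin n → ℝ} {Ks : Set (Fin n)}
    (htw : ∀ e, Tw0 vV (⋃ l, G l) (((Bd.can 4 Y).pow (m e)).mul (M e)) X (L e) O v (P e) (Q e)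
      (T e))
    (hlb : ∀ e, IsLBx X (L e))
    (hch : ChainK (fun e => ((Bd.can 4 Y).pow (m e)).mul (M e)) X L O v T (fun e => ρ e / Q e)
      S₀ G a)
    (ha : ∀ l ∉ Ks, 0 ≤ a l ∨ G l ⊆ Bad₁) (hK : ∀ l ∈ Ks, -1 < a l)
    (hK2 : ∀ l ∈ Ks, ∀ l' ∈ Ks, l ≠ l' → G l ∩ G l' ⊆ Bad₁)
    (hK3 : ∀ l ∈ Ks, ∀ i, G l ∩ range (ι i) ⊆ Bad₁)
    (hlt : ∀ i : Fin s, ρ (Fin.natAdd k i) < 1 ∨ range (ι i) ⊆ Bad₁)
    (hCd : ∀ l ∈ Ks, G l ⊆ closure (G l \ C))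
    {σ : ∀ i : Fin s, (L (Fin.natAdd k i)).ι → X.pt → ℂ}
    (hσ : ∀ i, IsSecx X univ (L (Fin.natAdd k i)) (σ i))
    (hrel : ∀ i : Fin s, ∀ y ∈ O, ∀ a b, v y ∈ (L (Fin.natAdd k i)).U a →
      y ∈ (((Bd.can 4 Y).pow (m (Fin.natAdd k i))).mul (M (Fin.natAdd k i))).U b →
      T (Fin.natAdd k i) a b y * σ i a (v y) ^ P (Fin.natAdd k i) =
        sg i b.2 y ^ Q (Fin.natAdd k i))
    (hSS : S ⊆ S₀) (hSan : IsAn X univ S) (hSO : S ⊆ (v '' O)ᶜ) (hS1 : ¬ DimLe X 1 S)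
    (hreg : DimLe X 1 {x | x ∈ S ∧ ¬ IsReg 4 X x})
    {Cr : Y → X.pt → Prop} (hCr : ∀ y x, Cr y x → y ∈ O ∧ v y = x)
    (hBP : DimLe X 1 {x | T3.BadPt S₀ Cr Bad x})
    (hB1 : Bad₁ ⊆ Bad) (hB1c : IsClosed Bad₁) (hCc : IsClosed C) (hCB : ∀ l ∈ Ks, G l \ C ⊆ Bad) :
    ∃ (x : Fin (k + s) → ℚ) (N : Fin (k + s) → ℕ) (Γ : Cm 4 → Y) (D : Set (Cm 4)) (w₀ : Cm 4)
      (r : ℝ) (φ : Cm 4 → X.pt) (i : ∀ e, (L e).ι)
      (a' : ∀ e, (((Bd.can 4 Y).pow (m e)).mul (M e)).ι), IsWg Γ D ∧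
      NiceW O v T Γ D w₀ r φ i a' x ∧ (∀ w ∈ ball w₀ r, w 0 = 0 → φ w ∈ S) ∧
      (∀ i, S ⊆ T3.zer (L (Fin.natAdd k i)) (σ i) → 1 ≤ N (Fin.natAdd k i)) ∧
      ((∑ e, ρ e / Q e * x e = 1 - ∑ e, ρ e * N e ∧ ∃ l w₁ r₁, IsPar (G l) Γ w₁ r₁ ∧ w₁ ∈ D) ∨
        (∃ (b : Fin s) (g : ℕ), 0 < ∑ e, ρ e / Q e * x e ∧ 1 ≤ g ∧ ¬ range (ι b) ⊆ Bad₁ ∧
          (1 - ρ (Fin.natAdd k b)) * g < 1 ∧
          ∑ e, ρ e / Q e * x e = 1 - (1 - ρ (Fin.natAdd k b)) * g - ∑ e, ρ e * N e ∧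
          ∃ w₁ ∈ D, w₁ 0 = 0 ∧ ∃ Ψ c r w', IsPar (range (ι b)) Ψ c r ∧ c 1 = 0 ∧
            T3.bet g w' = c ∧ w' 0 = 0 ∧ WgRel Γ (fun w => Ψ (T3.bet g w)) w₁ w' ∧
            ∀ z ∈ ball c r, z 0 = 0 → z 1 = 0 → Ψ z ∉ O) ∨
        ∃ l ∈ Ks, ∃ g : ℕ, 1 ≤ g ∧ (1 + a l) * g < 1 - ∑ e, ρ e * N e ∧
          ∑ e, ρ e / Q e * x e = 1 - g - ∑ e, ρ e * N e ∧
          ∃ w₁ ∈ D, w₁ 0 = 0 ∧ ∃ Ψ c r w', IsPar (G l) Ψ c r ∧ c 1 = 0 ∧
            T3.bet g w' = c ∧ w' 0 = 0 ∧ WgRel Γ (fun w => Ψ (T3.bet g w)) w₁ w' ∧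
            ∀ z ∈ ball c r, z 0 = 0 → z 1 = 0 → Ψ z ∈ C) := by
  have hk : 1 ≤ k + s := by
    rcases Nat.eq_zero_or_pos (k + s) with h0 | h0
    · have : ∀ e : Fin (k + s), False := fun e => by rw [h0] at e; exact e.elim0
      rw [Finset.sum_eq_zero fun e _ => (this e).elim] at hsum
      exact absurd hsum zero_ne_one
    · exact h0
  obtain ⟨W, w₂, φ, γ, ch, μ, i, x, J, κ, g, q, ζ, hg, hJB, hx, hκ, hsg, hposq, hζ⟩ :=
    exists_germM' hTA hTD hDis hk hM htw hlb hch hSan hSO hS1 hreg hSS hCr hBP hB1 hB1c hCc hCB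
    (β := Fin.natAdd k) (sg := sg) (fun i => (hbd i).sec) (fun i a y hy => bd_freq (hbd i) a y hy)
  have hQ1 : ∀ e, 1 ≤ Q e := fun e => (htw e).hQ
  have hQ0 : ∀ e, (0 : ℝ) < Q e := fun e => by exact_mod_cast hQ1 e
  -- the multiplicities
  choose Φg hΦg hΦg0 hgg using hsg
  have hmult : ∀ b : Fin s, 0 ≤ g b + κ (Fin.natAdd k b) ∧
      (σ b (i (Fin.natAdd k b)) (φ w₂) = 0 → 1 ≤ g b + κ (Fin.natAdd k b)) := by
    intro b
    have h1 := hg.mult hSO (e := Fin.natAdd k b) (P := P (Fin.natAdd k b)) (hQ1 _)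
      (κ := κ (Fin.natAdd k b)) (by rw [hx, hm0 b]; push_cast; ring) (sg := sg b)
      (η := fun a x => σ b a x ^ P (Fin.natAdd k b))
      ⟨fun a x hx ha => by
        have h2 := (hσ b).holo a x hx ha
        have h3 : ∀ n : ℕ, X.Hol (fun x => σ b a x ^ n) x := by
          intro n
          induction n with
          | zero => simpa using hol_const (1 : ℂ) x
          | succ n ih =>
            have h4 := hol_mul ih h2
            refine hol_congr h4 (Eventually.of_forall fun z => ?_)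
            exact (pow_succ _ _)
        exact h3 _,
        fun a a' x hx ha ha' => by
          show σ b a x ^ _ = (L (Fin.natAdd k b)).g a a' x ^ _ * σ b a' x ^ _
          rw [(hσ b).change a a' x hx ha ha', mul_pow]⟩
      (fun y hy a b' ha hb' => hrel b y hy a b' ha hb') (hΦg b) (hΦg0 b) (hgg b)
    refine ⟨h1.1, fun h0 => h1.2 ?_⟩
    show σ b (i (Fin.natAdd k b)) (φ w₂) ^ P (Fin.natAdd k b) = 0
    rw [h0, zero_pow (Nat.one_le_iff_ne_zero.1 (htw (Fin.natAdd k b)).hP)]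
  have hκ0 : ∀ e : Fin k, 0 ≤ κ (Fin.castAdd s e) := fun e => hκ _ χ hχ (hnef e)
  set N : Fin (k + s) → ℕ := Fin.append (fun e : Fin k => (κ (Fin.castAdd s e)).toNat)
    (fun b : Fin s => (g b + κ (Fin.natAdd k b)).toNat) with hN
  have hN1 : ∀ e : Fin k, ((N (Fin.castAdd s e) : ℕ) : ℝ) = κ (Fin.castAdd s e) := by
    intro e
    rw [hN, Fin.append_left]
    have : (((κ (Fin.castAdd s e)).toNat : ℤ) : ℝ) = κ (Fin.castAdd s e) := by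
      rw [Int.toNat_of_nonneg (hκ0 e)]
    exact_mod_cast this
  have hN2 : ∀ b : Fin s, ((N (Fin.natAdd k b) : ℕ) : ℝ) = g b + κ (Fin.natAdd k b) := by
    intro b
    rw [hN, Fin.append_right]
    have : (((g b + κ (Fin.natAdd k b)).toNat : ℤ) : ℝ) = ((g b + κ (Fin.natAdd k b) : ℤ) : ℝ) := by
      rw [Int.toNat_of_nonneg (hmult b).1]
    rw [← Int.cast_natCast (R := ℝ), this]
    push_cast
    rfl
  have hN3 : ∀ b, S ⊆ T3.zer (L (Fin.natAdd k b)) (σ b) → 1 ≤ N (Fin.natAdd k b) := by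
    intro b hb
    have h1 := (hmult b).2 (hb (hg.inS w₂ hg.mem hg.zero) _ (hg.memU w₂ hg.mem _))
    rw [hN, Fin.append_right]
    omega
  have hval : ∑ e, ρ e / Q e * x e = 1 - J + ∑ b : Fin s, ρ (Fin.natAdd k b) * g b -
      ∑ e, ρ e * N e := by
    have h2 : ∀ e, ρ e / Q e * (x e : ℝ) = ρ e * m e * (1 - J) - ρ e * κ e := by
      intro e
      rw [hx e]
      have := hQ0 e
      push_cast
      field_simp
    simp only [h2]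
    rw [Finset.sum_sub_distrib, ← Finset.sum_mul, hsum, one_mul, Fin.sum_univ_add (fun e => ρ e * (κ e : ℝ)),
      Fin.sum_univ_add (fun e => ρ e * (N e : ℝ))]
    simp only [hN1, hN2, mul_add]
    rw [Finset.sum_add_distrib]
    ring
  have hNnn : 0 ≤ ∑ e, ρ e * (N e : ℝ) := Finset.sum_nonneg fun e _ =>
    mul_nonneg (hρ e).le (Nat.cast_nonneg _)
  obtain ⟨r, hr, hrW, hwg, hnice⟩ := hg.exists_wg
  have hfin : IsWg γ (ball w₂ r) ∧ NiceW O v T γ (ball w₂ r) w₂ r φ i (fun e => (ch, μ e)) x ∧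
      (∀ w ∈ ball w₂ r, w 0 = 0 → φ w ∈ S) := ⟨hwg, hnice, fun w hw hw0 => hg.inS w (hrW hw) hw0⟩
  refine ⟨x, N, γ, ball w₂ r, w₂, r, φ, i, fun e => (ch, μ e), hfin.1, hfin.2.1, hfin.2.2,
    hN3, ?_⟩
  obtain ⟨ΦJ, hΦ1, hΦ2, hΦ3⟩ := hg.jac
  have hcy := hg.lift w₂ hg.mem
  have hmem : ∀ b, 1 ≤ g b → γ w₂ ∈ range (ι b) := by
    intro b hb
    refine ((hbd b).zero _ _ (hg.memN w₂ hg.mem (Fin.natAdd k b))).1 ?_
    rw [(hgg b).self_of_nhds, hg.zero, zero_pow (by omega), zero_mul]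
  have hhyp : ∀ b, IsHyp (range (ι b)) := fun b => RR.isHyp_of_bd (hM _) (hbd b)
  have hdn : ∀ b, range (ι b) ⊆ closure (range (ι b) ∩ O) := fun b =>
    (RR.hyp_dense hvV hG hcl (hhyp b) (isPreconnected_range (hbd b).sub.cont)
      (fun l hl => hne b (hl.trans (subset_iUnion G l)))
      (htw ⟨0, hk⟩).emb.isOpen (htw ⟨0, hk⟩).thin).2.1
  have hgJ : ∀ b, g b ≤ J := fun b => RR.order_le_jac (hbd b) (fun μ => (hM _).isOpen μ) (hdn b)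
    hg.zero hcy.1 hcy.2.1 hcy.2.2 (by
      filter_upwards [hg.isOpen.mem_nhds hg.mem] with w hw hw0 using hg.notMem hSO hw hw0)
    (hg.memN w₂ hg.mem _) (hΦg b) (hΦg0 b) hΦ1 hΦ2 (hgg b) hΦ3
  have hμG : ∀ l, 1 ≤ q l → γ w₂ ∈ G l := by
    intro l hl
    obtain ⟨z1, Φq, -, -, z4⟩ := hζ l
    refine z1.1.self_of_nhds.1 ?_
    rw [z4.self_of_nhds, hg.zero, zero_pow (by omega), zero_mul]
  by_cases hJ : J = 0
  · -- the centre is an exceptional divisor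
    left
    subst hJ
    have hall : ∀ b, g b = 0 := fun b => by have := hgJ b; omega
    have hs0 : ∑ b : Fin s, ρ (Fin.natAdd k b) * (g b : ℝ) = 0 :=
      Finset.sum_eq_zero fun b _ => by rw [hall b, Nat.cast_zero, mul_zero]
    rw [hs0, add_zero] at hval
    have hdet : (fderiv ℂ (fun w => ch (γ w)) w₂).det ≠ 0 := by
      rw [hΦ3.self_of_nhds, pow_zero, one_mul]
      exact hΦ2
    obtain ⟨l, w₃, hw₃, hw₃0, r₃, hs₃, hpar⟩ := exists_par hvV hsurj hG hcl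
      (htw ⟨0, hk⟩).thin isOpen_ball (mem_ball_self hr) hg.zero
      (fun w hw => hg.lift w (hrW hw)) hdet (fun w hw hw0 => hg.notMem hSO (hrW hw) hw0)
    refine ⟨?_, l, w₃, r₃, hpar, hw₃⟩
    rw [hval, Nat.cast_zero, sub_zero]
  obtain ⟨hnb, hqC⟩ := hJB.resolve_left hJ
  have hJ1 : 1 ≤ J := by omega
  have hcan : ∀ l ∉ Ks, 0 ≤ a l ∨ q l = 0 := by
    intro l hl
    refine (ha l hl).imp_right fun h => ?_
    by_contra h1
    exact hnb w₂ hg.mem (h (hμG l (by omega)))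
  right
  by_cases hall : ∀ b, g b = 0
  · -- the centre is contained in a `G l` with negative discrepancy
    right
    have hs0 : ∑ b : Fin s, ρ (Fin.natAdd k b) * (g b : ℝ) = 0 :=
      Finset.sum_eq_zero fun b _ => by rw [hall b, Nat.cast_zero, mul_zero]
    rw [hs0, add_zero] at hval
    have hJ1' : (1 : ℝ) ≤ J := by exact_mod_cast hJ1
    obtain ⟨l, hl, hql⟩ : ∃ l ∈ Ks, 1 ≤ q l := by
      by_contra hcon
      push Not at hcon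
      have h1 : 0 ≤ ∑ l, a l * (q l : ℝ) := sum_nonneg' hcan fun l hl => by
        have := hcon l hl
        omega
      linarith
    have hother : ∀ l' ∈ Ks, l' ≠ l → q l' = 0 := by
      intro l' hl' hne'
      by_contra h1
      exact hnb w₂ hg.mem (hK2 l' hl' l hl hne' ⟨hμG l' (by omega), hμG l hql⟩)
    have hsuml : a l * q l ≤ ∑ l, a l * (q l : ℝ) := by
      rw [← Finset.add_sum_erase _ _ (Finset.mem_univ l)]
      have h6 : 0 ≤ ∑ l' ∈ Finset.univ.erase l, a l' * (q l' : ℝ) := by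
        refine Finset.sum_nonneg fun l' hl' => ?_
        by_cases h7 : l' ∈ Ks
        · rw [hother l' h7 (Finset.ne_of_mem_erase hl'), Nat.cast_zero, mul_zero]
        · rcases hcan l' h7 with h5 | h5
          · exact mul_nonneg h5 (Nat.cast_nonneg _)
          · rw [h5, Nat.cast_zero, mul_zero]
      linarith
    obtain ⟨z1, Φq, z2, z3, z4⟩ := hζ l
    obtain ⟨c1, c2, c3⟩ := stClass Y (G l) Cᶜ (hG l) hCc.isOpen_compl (ball w₂ r)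
      isOpen_ball w₂ (mem_ball_self hr) hg.zero γ ch (fun w hw => hg.lift w (hrW hw))
      (fun w hw hw0 h => h (hqC l hl hql w (hrW hw) hw0)) J (q l) hql ΦJ Φq _ z1 hΦ1 hΦ2 z2
      z3 hΦ3 z4
    have hqJ : q l ≤ J := by
      rcases Nat.lt_or_ge J (q l) with h1 | h1
      · exfalso
        obtain ⟨U, hU, ⟨y, hyU, hyG⟩, hUs⟩ := c2 (by omega)
        obtain ⟨y', hy'U, hy'G, hy'C⟩ := mem_closure_iff_nhds.1 (hCd l hl hyG) U (hU.mem_nhds hyU)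
        obtain ⟨w, ⟨hw, hw0⟩, rfl⟩ := hUs ⟨hy'U, hy'G⟩
        exact hy'C (hqC l hl hql w (hrW hw) hw0)
      · exact h1
    have hal := hK l hl
    have hql' : (1 : ℝ) ≤ q l := by exact_mod_cast hql
    have hkey : a l * q l < 1 - J - ∑ e, ρ e * N e := by
      rw [← hval]
      exact lt_of_le_of_lt hsuml hposq
    have hJq : J = q l := by
      by_contra h1
      have h2 : q l + 1 ≤ J := by omega
      have h3 : (q l : ℝ) + 1 ≤ J := by exact_mod_cast h2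
      nlinarith
    refine ⟨l, hl, q l, hql, ?_, ?_, ?_⟩
    · rw [hJq] at hkey
      linarith
    · rw [hval, hJq]
    · obtain ⟨w₃, hw₃, hw₃0, Ψ, c', r', w', d1, d2, d3, d4, d5, d6⟩ := c3 hJq
      exact ⟨w₃, hw₃, hw₃0, Ψ, c', r', w', d1, d2, d3, d4, d5, fun z hz h0 h1 =>
        not_not.1 (d6 z hz h0 h1)⟩
  · -- the centre is contained in an `H b`
    left
    push Not at hall
    obtain ⟨b, hb⟩ := hall
    have hb1 : 1 ≤ g b := Nat.one_le_iff_ne_zero.2 hb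
    have hs0 : ∑ b' : Fin s, ρ (Fin.natAdd k b') * (g b' : ℝ) = ρ (Fin.natAdd k b) * g b := by
      refine Finset.sum_eq_single b (fun b' _ hbb => ?_) fun h => absurd (Finset.mem_univ b) h
      have h2 : g b' = 0 := by
        by_contra h3
        exact disjoint_left.1 (hdis hbb) (hmem b' (by omega)) (hmem b hb1)
      rw [h2, Nat.cast_zero, mul_zero]
    rw [hs0] at hval
    have hpos : 0 < ∑ e, ρ e / Q e * x e := by
      refine lt_of_le_of_lt (sum_nonneg' hcan fun l hl => ?_) hposq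
      by_contra h1
      exact hnb w₂ hg.mem (hK3 l hl b ⟨hμG l (by omega), hmem b hb1⟩)
    have hpos' := hpos
    rw [hval] at hpos
    have hgb : (1 : ℝ) ≤ g b := by exact_mod_cast hb1
    have hbB : ¬ range (ι b) ⊆ Bad₁ := fun h => hnb w₂ hg.mem (h (hmem b hb1))
    have hltb : ρ (Fin.natAdd k b) < 1 := (hlt b).resolve_right hbB
    have hJg : J = g b := by
      by_contra hJ
      have h0 := hgJ b
      have h1 : g b + 1 ≤ J := by omega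
      have h2 : (g b : ℝ) + 1 ≤ J := by exact_mod_cast h1
      nlinarith [hltb]
    have hval' : ∑ e, ρ e / Q e * x e = 1 - (1 - ρ (Fin.natAdd k b)) * g b - ∑ e, ρ e * N e := by
      rw [hval, hJg]
      ring
    refine ⟨b, g b, hpos', hb1, hbB, ?_, hval', ?_⟩
    · rw [hJg] at hpos
      linarith
    · have hζ' : IsLEq (range (ι b)) (γ w₂) (sg b (μ (Fin.natAdd k b))) := by
        have hU := hg.memN w₂ hg.mem (Fin.natAdd k b)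
        refine ⟨?_, fun e he => ⟨((hbd b).sec.holo _ e _ he hU).analyticAt,
          fun h0 => (hbd b).mult _ _ hU h0 e he⟩⟩
        filter_upwards [((hM _).isOpen _).mem_nhds hU] with y' hy'
        exact (hbd b).zero _ _ hy'
      obtain ⟨-, -, h3⟩ := stClass Y (range (ι b)) O (hhyp b) (htw ⟨0, hk⟩).emb.isOpen (ball w₂ r)
        isOpen_ball w₂ (mem_ball_self hr) hg.zero γ ch (fun w hw => hg.lift w (hrW hw))
        (fun w hw hw0 => hg.notMem hSO (hrW hw) hw0) J (g b) hb1 ΦJ (Φg b) _ hζ' hΦ1 hΦ2 (hΦg b)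
        (hΦg0 b) hΦ3 (hgg b)
      exact h3 hJg

end Vale.Agent.P277.H335.MM
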