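import Vale.Agent.P277.H615.R.Count

/-!
# P277, (T7): counting the places, with an arbitrary finite family of hypersurfaces
-/

open scoped Manifold ContDiff Topology
open Vale.Agent.P272.K Vale.Agent.P285.H281.FD Vale.Agent.P267.H175 Set Filter Metric

noncomputable section

namespace Vale.Agent.P277.H335.MM

open Vale.Agent.P277 Vale.Agent.P277.T2 Vale.Agent.P277.H335 Vale.Agent.P277.H615

variable {Y : Type} [TopologicalSpace Y] [T2Space Y] [ChartedSpace (Cm 4) Y]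
  [IsManifold 𝓘(ℂ, Cm 4) ω Y]

/-- the counting argument -/
theorem count_coreM {r : ℕ} {τ : Type} [Fintype τ] {G : Fin r → Set Y} (hG : ∀ l, IsHyp (G l))
    (hGc : ∀ l, IsPreconnected (G l)) {E : τ → Set Y} {q : τ → ℕ}
    {V : ∀ b, Fin (q b) → Set Y} (hV : ∀ b l, IsSf (E b) (V b l))
    (hVc : ∀ b l, IsPreconnected (V b l)) (val : (Cm 4 → Y) → Set (Cm 4) → ℕ → ℝ)
    (hmono : ∀ Γ D, IsWg Γ D → ∀ j, val Γ D j ≤ val Γ D (j + 1))
    (hrel : ∀ γ γ' D D' w w', IsWg γ D → IsWg γ' D' → w ∈ D → w 0 = 0 → w' ∈ D' → w' 0 = 0 →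
      WgRel γ γ' w w' → val γ D = val γ' D') (gm : ℕ) {F : Set ℝ} (hF : F.Finite) (B : Set ℕ)
    (hB : ∀ j ∈ B, ∃ Γ D, IsWg Γ D ∧ val Γ D j < val Γ D (j + 1) ∧ val Γ D (j + 1) ∈ F ∧
      ((∃ l w₁ r₁, IsPar (G l) Γ w₁ r₁ ∧ w₁ ∈ D) ∨
        ∃ (b : τ) (g : ℕ), 1 ≤ g ∧ g ≤ gm ∧ ∃ w₁ ∈ D, w₁ 0 = 0 ∧ ∃ Ψ c r w',
          IsPar (E b) Ψ c r ∧ c 1 = 0 ∧ T3.bet g w' = c ∧ w' 0 = 0 ∧
          WgRel Γ (fun w => Ψ (T3.bet g w)) w₁ w' ∧
          ∃ l, ∃ z ∈ ball c r, ∃ r', ball z r' ⊆ ball c r ∧ IsAd (E b) (V b l) Ψ z r')) :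
    B.Finite := by
  classical
  obtain ⟨hc1, hc2⟩ := stConst' Y (ℕ → ℝ) val hrel
  set x : (Fin r ⊕ (Σ b : τ, Fin (q b) × Fin (gm + 1))) → ℕ → ℝ := fun τ =>
    match τ with
    | Sum.inl l => if h : ∃ a : (Cm 4 → Y) × Cm 4 × ℝ, IsPar (G l) a.1 a.2.1 a.2.2 then
        val h.choose.1 (ball h.choose.2.1 h.choose.2.2) else 0
    | Sum.inr ⟨b, l, g⟩ => if h : 1 ≤ (g : ℕ) ∧ ∃ a : (Cm 4 → Y) × Cm 4 × ℝ,
        IsAd (E b) (V b l) a.1 a.2.1 a.2.2 then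
        val (fun w => h.2.choose.1 (T3.bet g w))
          {w | T3.bet g w ∈ ball h.2.choose.2.1 h.2.choose.2.2} else 0 with hx
  refine H371.C.finite_bad x id ?_ (fun _ => F) (fun _ => hF) B ?_
  · rintro (l | ⟨b, l, g⟩) j
    · simp only [hx, id]
      split_ifs with h
      · exact hmono _ _ (stWgPar Y (G l) _ _ _ h.choose_spec) j
      · exact le_rfl
    · simp only [hx, id]
      split_ifs with h
      · exact hmono _ _ (stWgAd Y (E b) _ _ _ h.2.choose_spec.par h.2.choose_spec.one _ h.1) j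
      · exact le_rfl
  · intro j hj
    obtain ⟨Γ, D, hw, h1, h2, hcase⟩ := hB j hj
    rcases hcase with ⟨l, w₁, r₁, hpar, hw₁D⟩ | ⟨b, g, hg1, hgm, w₁, hw₁D, hw₁0, Ψ, c, r', w', hpar,
      hc0, hbw, hw'0, hWR, l, z, hz, r'', hsub, had⟩
    · have hex : ∃ a : (Cm 4 → Y) × Cm 4 × ℝ, IsPar (G l) a.1 a.2.1 a.2.2 := ⟨(Γ, w₁, r₁), hpar⟩
      have h3 : x (Sum.inl l) = val Γ D := by
        have e1 : x (Sum.inl l) = val hex.choose.1 (ball hex.choose.2.1 hex.choose.2.2) := by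
          simp only [hx]
          rw [dif_pos hex]
        rw [e1, hc2 (G l) (hG l) (hGc l) _ Γ _ w₁ _ r₁ hex.choose_spec hpar]
        exact hrel _ _ _ _ w₁ w₁ (stWgPar Y (G l) _ _ _ hpar) hw (mem_ball_self hpar.pos) hpar.zero
          hw₁D hpar.zero (wgRel_id w₁)
      refine ⟨Sum.inl l, ?_, ?_⟩
      · rw [h3]; exact h1
      · rw [h3]; exact h2
    · have hlt : g < gm + 1 := by omega
      have hex : 1 ≤ ((⟨g, hlt⟩ : Fin (gm + 1)) : ℕ) ∧ ∃ a : (Cm 4 → Y) × Cm 4 × ℝ,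
        IsAd (E b) (V b l) a.1 a.2.1 a.2.2 := ⟨hg1, (Ψ, z, r''), had⟩
      have h3 : x (Sum.inr ⟨b, l, ⟨g, hlt⟩⟩) = val Γ D := by
        have e1 : x (Sum.inr ⟨b, l, ⟨g, hlt⟩⟩) = val (fun w => hex.2.choose.1 (T3.bet g w))
          {w | T3.bet g w ∈ ball hex.2.choose.2.1 hex.2.choose.2.2} := by
          simp only [hx]
          rw [dif_pos hex]
        have hW1 := stWgAd Y (E b) Ψ c r' hpar hc0 g hg1
        have hW2 := stWgAd Y (E b) Ψ z r'' had.par had.one g hg1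
        have hz2 : T3.bet g ![0, 0, z 2, z 3] = z := bet_point hg1 had.par.zero had.one
        rw [e1, hc1 (E b) (V b l) (hV b l) (hVc b l) g hg1 _ Ψ _ z _ r'' hex.2.choose_spec had]
        have e2 : val (fun w => Ψ (T3.bet g w)) {w | T3.bet g w ∈ ball z r''} =
            val (fun w => Ψ (T3.bet g w)) {w | T3.bet g w ∈ ball c r'} := by
          refine hrel _ _ _ _ ![0, 0, z 2, z 3] ![0, 0, z 2, z 3] hW2 hW1 ?_ rfl ?_ rfl
            (wgRel_id _)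
          · show T3.bet g ![0, 0, z 2, z 3] ∈ ball z r''
            rw [hz2]; exact mem_ball_self had.par.pos
          · show T3.bet g ![0, 0, z 2, z 3] ∈ ball c r'
            rw [hz2]; exact hz
        rw [e2]
        refine (hrel _ _ _ _ w₁ w' hw hW1 hw₁D hw₁0 ?_ hw'0 hWR).symm
        show T3.bet g w' ∈ ball c r'
        rw [hbw]; exact mem_ball_self hpar.pos
      refine ⟨Sum.inr ⟨b, l, ⟨g, hlt⟩⟩, ?_, ?_⟩
      · rw [h3]; exact h1
      · rw [h3]; exact h2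

end Vale.Agent.P277.H335.MM
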