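import Vale.Agent.P277.H60.Z.Match
import Vale.Agent.P277.H60.Z.StFinV
import Vale.Agent.P277.H615.TAc
import Vale.Agent.P277.H615.R.P7B
import Vale.Agent.P277.H29.ClosN
import Vale.Agent.P277.H884.G.Tot
import Vale.Agent.P277.H335.K.TowerK
import Vale.Agent.P277.H335.K.RegL
import Vale.Agent.P277.H335.M.CountM
import Vale.Agent.P277.H335.M.ClassM
import Vale.Agent.P277.Stmts23

/-!
# P277, (T7): (P7M)
-/

open scoped Manifold ContDiff Topology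
open Vale.Agent.P272.K Vale.Agent.P285.H281.FD Vale.Agent.P267.H175 Set Filter Metric

noncomputable section

namespace Vale.Agent.P277.H335.MM

open Vale.Agent.P277 Vale.Agent.P277.T2 Vale.Agent.P277.H335 Vale.Agent.P277.T3
open Vale.Agent.P277.H615 Vale.Agent.P277.H335.KK
open Vale.Agent.P277.H884.N (stWgBase1 stWgStep1 stWgTrans1)
open Vale.Agent.P277.H884.G (exists_twSeqG_of cor_iff)

/-- (P7M) Let `β` be a real number. If the surfaces of `H μ` are eventually not contracted, for all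
`μ ∉ I'` with `b μ > β`, then the flipped surfaces are eventually not contained in `B ν`, for all `ν`
with `b ν ≥ β`, and, if `β ≤ 0`, there are eventually no flipped surfaces. The blow-ups of the flipped
surfaces may be centred in the surfaces contained in `C ∩ G l`, `l ∈ K`. -/
theorem stP7M (Y : Type) [TopologicalSpace Y] [T2Space Y] [CompactSpace Y]
    [ChartedSpace (Cm 4) Y]
    [IsManifold 𝓘(ℂ, Cm 4) ω Y] (χ : Chart 4 Y → Cm 4 → Matrix (Fin 4) (Fin 4) ℂ) (k s : ℕ)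
    (M : Fin (k + s) → Bd Y) (m : Fin (k + s) → ℕ) (ρ : Fin (k + s) → ℝ) (H : Fin s → Type)
    [∀ i, TopologicalSpace (H i)] [∀ i, T2Space (H i)] [∀ i, CompactSpace (H i)]
    [∀ i, ConnectedSpace (H i)] [∀ i, ChartedSpace (Cm 3) (H i)]
    [∀ i, IsManifold 𝓘(ℂ, Cm 3) ω (H i)] (ι : ∀ i, H i → Y)
    (sg : ∀ i : Fin s, (M (Fin.natAdd k i)).ι → Y → ℂ) (W : CSp) (X Z : ℕ → CSp) (r : ℕ)
    (v₀ : Y → W.pt) (p : W.pt → (X 0).pt) (P : Bd W.pt) (G : Fin r → Set Y)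
    (f : ∀ j, (X j).pt → (Z j).pt) (f' : ∀ j, (X (j + 1)).pt → (Z j).pt)
    (A : ∀ j, Set (Z j).pt) (L : ∀ j, Fin (k + s) → Bd (X j).pt) (c : ℕ → Fin (k + s) → ℕ)
    (σ : ∀ j, ∀ i : Fin s, (L j (Fin.natAdd k i)).ι → (X j).pt → ℂ)
    (n : Fin (k + s) → Fin r → ℤ) (t : ∀ e, (L 0 e).ι →
      ((((Bd.can 4 Y).pow (m e)).mul (M e)).pow (c 0 e)).ι → Y → ℂ)
    (h : IsPG χ M m ρ ι sg v₀ p P G f f' A L c σ n t)
    (I K : Set (Fin r)) (I' : Set (Fin s))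
    (hI : ∀ l, l ∉ I → l ∉ K → 0 ≤ ∑ e, ρ e * n e l / c 0 e)
    (hK : ∀ l ∈ K, -1 < ∑ e, ρ e * n e l / c 0 e)
    (hblt : ∀ i ∉ I', ρ (Fin.natAdd k i) < 1)
    (C : Set Y) (hC : IsClosed C) (hCd : ∀ l ∈ K, G l ⊆ closure (G l \ C))
    (hV : ∀ l ∈ K, ∃ (q : ℕ) (V : Fin q → Set Y), (∀ i, IsPreconnected (V i)) ∧
      (∀ i, IsSf (G l) (V i)) ∧ ThinM 4 1 ((G l ∩ C) \ ⋃ i, V i)) (J₀ : ℕ)
    (hregB : ∀ j ≥ J₀, DimLe (X (j + 1)) 1 {x | x ∈ f' j ⁻¹' Amin (f j) ∧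
      ¬ IsReg 4 (X (j + 1)) x})
    (hbad : ∀ j ≥ J₀, DimLe (X (j + 1)) 1 {x | BadPt (f' j ⁻¹' Amin (f j))
      (Cor (⋃ l, G l) (fun y => p (v₀ y)) f f' (j + 1))
      (bad ι G I I' ∪ cross ι G K ∪ ⋃ l ∈ K, G l \ C) x})
    (O : ℕ → Set Y) (v : ∀ j, Y → (X j).pt) (hseq : IsSeq X Z f f' (fun j => Amin (f j)) O v)
    (hO : O 0 = (⋃ l, G l)ᶜ) (hv : v 0 = fun y => p (v₀ y)) (β : ℝ)
    (hcon : ∀ μ : Fin s, μ ∉ I' → β < ρ (Fin.natAdd k μ) →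
      ∃ J, ∀ j ≥ J, ThinM 3 1 (ι μ ⁻¹' O j \ ι μ ⁻¹' O (j + 1))) :
    ∃ J, ∀ j ≥ J, DimLe (X (j + 1)) 1 {x | x ∈ f' j ⁻¹' Amin (f j) ∧
      (β ≤ 0 ∨ ∃ ν : Fin s, β ≤ ρ (Fin.natAdd k ν) ∧
        x ∈ zer (L (j + 1) (Fin.natAdd k ν)) (σ (j + 1) ν))} := by
  classical
  have hk : 1 ≤ k + s := by
    rcases Nat.eq_zero_or_pos (k + s) with h0 | h0
    · exfalso
      have h1 := h.sum
      have h2 : IsEmpty (Fin (k + s)) := by rw [h0]; infer_instance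
      rw [Finset.sum_of_isEmpty] at h1
      exact zero_ne_one h1
    · exact h0
  set Bad₁ : Set Y := bad ι G I I' ∪ cross ι G K with hBad₁
  have hcan : ∀ l ∉ K, 0 ≤ ∑ e, ρ e * n e l / c 0 e ∨ G l ⊆ Bad₁ := by
    intro l hlK
    by_cases hl : l ∈ I
    · exact Or.inr fun y hy => Or.inl (Or.inl (mem_iUnion₂.2 ⟨l, hl, hy⟩))
    · exact Or.inl (hI l hl hlK)
  obtain ⟨v', P', Q', T, hTS, -⟩ := exists_twSeqG_of (Bad := univ) H884.stL0 hk h.lb h.res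
    h.c1 h.cmp h.corr (fun l => Or.inr (subset_univ _)) h.flip hseq hO hv
  have hchK := exists_chainK H884.stL0 hk (h.flip 0).flip.normal h.lb h.res h.cmp hTS
  have hBc : IsClosed Bad₁ :=
    (T3.isClosed_bad h.res.closed fun i => (h.bd i).sub.cont).union
      (isClosed_cross h.res.closed fun i => (isCompact_range (h.bd i).sub.cont).isClosed)
  have hK2 : ∀ l ∈ K, ∀ l' ∈ K, l ≠ l' → G l ∩ G l' ⊆ Bad₁ := fun l hl l' hl' hll y hy =>
    Or.inr ⟨l, hl, hy.1, Or.inl ⟨l', hl', hll.symm, hy.2⟩⟩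
  have hK3 : ∀ l ∈ K, ∀ i, G l ∩ range (ι i) ⊆ Bad₁ := fun l hl i y hy =>
    Or.inr ⟨l, hl, hy.1, Or.inr ⟨i, hy.2⟩⟩
  have hneX : ∀ j, Nonempty (X j).pt := by
    intro j
    have h1 := (h.flip j).flip.ninj
    rw [Function.Injective] at h1
    push Not at h1
    obtain ⟨x, -⟩ := h1
    exact ⟨x⟩
  have hneW : Nonempty W.pt := by
    obtain ⟨x⟩ := hneX 0
    obtain ⟨w, -⟩ := h.res.psurj x
    exact ⟨w⟩
  have hneY : Nonempty Y := by
    obtain ⟨w⟩ := hneW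
    obtain ⟨y, -⟩ := h.res.surj w
    exact ⟨y⟩
  have hN : ∀ e, CtBd (((Bd.can 4 Y).pow (m e)).mul (M e)) := fun e => ctBd (h.lb e) (m e)
  have hflipD : ∀ j, ∃ pp qq s' a, ∃ hf : FlipD (f j) (f' j) (L j) (L (j + 1)) pp qq s' a, True := by
    intro j
    obtain ⟨pp, qq, s', d, a, hd, hcpq, hf, hda⟩ := exists_flipD (h.flip j).flip (h.c1 j)
    exact ⟨pp, qq, s', a, hf, trivial⟩
  have hCr : ∀ j y x, Cor (⋃ l, G l) (fun y => p (v₀ y)) f f' j y x ↔ y ∈ O j ∧ v' j y = x := by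
    intro j y x
    refine cor_iff hTS.O0 hTS.v0 (fun j => ?_) (fun j y hy => ?_) (fun j x x' hx hxx => ?_) j y x
    · obtain ⟨p, q, u, a, hf, d, b, -, -, -, -, hOj, -⟩ := hTS.step j
      exact hOj
    · obtain ⟨p, q, u, a, hf, d, b, -, -, -, -, -, hvj, -, -, -⟩ := hTS.step j
      rw [hvj]
      exact hf.small'.sec_eq _
    · obtain ⟨pp, qq, s', a, hf, -⟩ := hflipD j
      exact hf.small'.inj x x' hx hxx
  -- the values along the wedges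
  have hex := fun (Γ : Cm 4 → Y) (D : Set (Cm 4)) (hW : IsWg Γ D) =>
    hTS.exists_ordW stWgBase1 stWgStep1 hk h.lb h.res h.cmp hW
  choose α hα1 hα2 hα3 using hex
  set al : (Cm 4 → Y) → Set (Cm 4) → ℕ → Fin (k + s) → ℚ := fun Γ D j =>
    if hW : IsWg Γ D then α Γ D hW j else 0 with hal
  set val : (Cm 4 → Y) → Set (Cm 4) → ℕ → ℝ := fun Γ D j => ∑ e, ρ e * al Γ D j e with hvaldef
  have hal' : ∀ Γ D (hW : IsWg Γ D) j, al Γ D j = α Γ D hW j := by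
    intro Γ D hW j
    simp only [hal]
    rw [dif_pos hW]
  have hmono : ∀ Γ D, IsWg Γ D → ∀ j, val Γ D j ≤ val Γ D (j + 1) := by
    intro Γ D hW j
    simp only [hvaldef]
    rw [hal' Γ D hW, hal' Γ D hW]
    exact hα2 Γ D hW j
  have hrel : ∀ γ γ' D D' w w', IsWg γ D → IsWg γ' D' → w ∈ D → w 0 = 0 → w' ∈ D' → w' 0 = 0 →
      WgRel γ γ' w w' → val γ D = val γ' D' := by
    rintro γ γ' D D' w w' hW hW' hw hw0 hw' hw'0 ⟨χ', hχ1, hχ2, hχ3⟩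
    funext j
    simp only [hvaldef]
    rw [hal' γ D hW, hal' γ' D' hW']
    have h1 := stWgTrans1 Y (k + s) hk W (X j) v₀ h.res.emb (⋃ l, G l) _ hN (L j) (c j)
      (O j) (hTS.dense j) (v' j) (P' j) (Q' j) (T j) (hTS.tw1 j) γ γ' D D' hW hW' _ _ (hα1 γ D hW j)
      (hα1 γ' D' hW' j) w hw hw0 χ' hχ1 (by rw [hχ2]; exact hw') hχ3
    rw [h1]
  -- the values along the `G l` are bounded below
  obtain ⟨C₀, hC₀⟩ : ∃ C : ℝ, 0 ≤ C ∧ ∀ l Γ D w₁ r₁, IsWg Γ D → IsPar (G l) Γ w₁ r₁ → w₁ ∈ D →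
      -C ≤ val Γ D 0 := by
    have hC1 : ∀ l, ∃ C : ℝ, 0 ≤ C ∧ ∀ Γ D w₁ r₁, IsWg Γ D → IsPar (G l) Γ w₁ r₁ → w₁ ∈ D →
        -C ≤ val Γ D 0 := by
      intro l
      have h1 : ∀ Γ D w₁ r₁, IsWg Γ D → IsPar (G l) Γ w₁ r₁ → w₁ ∈ D →
          val Γ (ball w₁ r₁) = val Γ D := fun Γ D w₁ r₁ hw hpar hw₁ =>
        hrel _ _ _ _ w₁ w₁ (stWgPar Y (G l) _ _ _ hpar) hw (mem_ball_self hpar.pos) hpar.zero
          hw₁ hpar.zero (wgRel_id w₁)
      by_cases hex : ∃ (a : (Cm 4 → Y) × Cm 4 × ℝ), IsPar (G l) a.1 a.2.1 a.2.2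
      · obtain ⟨⟨Γ₀, w₀, r₀⟩, hpar₀⟩ := hex
        refine ⟨|val Γ₀ (ball w₀ r₀) 0|, abs_nonneg _, fun Γ D w₁ r₁ hw hpar hw₁ => ?_⟩
        rw [← h1 Γ D w₁ r₁ hw hpar hw₁, (stConst' Y (ℕ → ℝ) val hrel).2 (G l) (h.res.hyp l)
          (h.res.conn l) _ Γ₀ _ w₀ _ r₀ hpar hpar₀]
        exact neg_abs_le _
      · exact ⟨0, le_rfl, fun Γ D w₁ r₁ hw hpar hw₁ => (hex ⟨⟨Γ, w₁, r₁⟩, hpar⟩).elim⟩
    choose Cl hCl0 hCl using hC1
    refine ⟨∑ l, Cl l, Finset.sum_nonneg fun l _ => hCl0 l, fun l Γ D w₁ r₁ hw hpar hw₁ => ?_⟩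
    have h1 := hCl l Γ D w₁ r₁ hw hpar hw₁
    have h2 := Finset.single_le_sum (f := Cl) (fun l _ => hCl0 l) (Finset.mem_univ l)
    linarith
  have hmono0 : ∀ Γ D, IsWg Γ D → ∀ j, val Γ D 0 ≤ val Γ D j := fun Γ D hW j =>
    monotone_nat_of_le_succ (hmono Γ D hW) (Nat.zero_le j)
  -- the surfaces
  have hsurf : ∀ b : Fin s, ∃ (J q : ℕ) (V : Fin q → Set Y), (∀ l, IsPreconnected (V l)) ∧
      (∀ l, IsSf (range (ι b)) (V l)) ∧ (b ∉ I' → β < ρ (Fin.natAdd k b) →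
        ∀ j ≥ J, ThinM 4 1 ((range (ι b) \ O j) \ ⋃ l, V l)) := by
    intro b
    by_cases hb : b ∉ I' ∧ β < ρ (Fin.natAdd k b)
    · have hfl : ∀ j, ∃ (L₁ : Bd (X j).pt) (L₂ : Bd (X (j + 1)).pt),
          IsFlip (X j) (Z j) (X (j + 1)) (f j) (f' j) (Amin (f j)) L₁ L₂ := by
        intro j
        obtain ⟨pp, qq, s', a, hf, -⟩ := hflipD j
        exact ⟨_, _, hf.flip none⟩
      choose L₁ L₂ hL using hfl
      have hne : (ι b ⁻¹' O 0).Nonempty := by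
        have h1 := h.ne b
        rw [not_subset] at h1
        obtain ⟨_, ⟨x, rfl⟩, hx⟩ := h1
        refine ⟨x, ?_⟩
        show ι b x ∈ O 0
        rw [hO]; exact hx
      obtain ⟨J, q, V, h1, h2, h3⟩ := H60.Z.stFinV Y W X Z r v₀ p P G h.res f f'
        (fun j => Amin (f j)) L₁ L₂ hL O v hseq hO hv (H b) (ι b) (h.bd b).sub hne (hcon b hb.1 hb.2)
      exact ⟨J, q, V, h1, h2, fun _ _ => h3⟩
    · exact ⟨0, 0, fun l => l.elim0, fun l => l.elim0, fun l => l.elim0,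
        fun h h' => (hb ⟨h, h'⟩).elim⟩
  choose J₁ q V hVc hVs hVthin using hsurf
  choose qK VK hVKc hVKs hVKt using hV
  -- the finite set of values
  obtain ⟨gm₁, hgm₁⟩ : ∃ gm : ℕ, ∀ (b : Fin s) (g : ℕ), b ∉ I' →
      (1 - ρ (Fin.natAdd k b)) * g < 1 → g ≤ gm := by
    choose gb hgb using fun b : Fin s => exists_nat_gt (1 / (1 - ρ (Fin.natAdd k b)))
    refine ⟨∑ b, gb b, fun b g hbI hg => ?_⟩
    have h1 : 0 < 1 - ρ (Fin.natAdd k b) := by linarith [hblt b hbI]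
    have h2 : (g : ℝ) < 1 / (1 - ρ (Fin.natAdd k b)) := by
      rw [lt_div_iff₀ h1]; linarith
    have h3 : (g : ℝ) < gb b := h2.trans (hgb b)
    have h4 : g < gb b := by exact_mod_cast h3
    exact h4.le.trans (Finset.single_le_sum (f := gb) (fun _ _ => Nat.zero_le _) (Finset.mem_univ b))
  obtain ⟨gm₂, hgm₂⟩ : ∃ gm : ℕ, ∀ (l : Fin r) (g : ℕ), l ∈ K →
      (1 + ∑ e, ρ e * n e l / c 0 e) * g < 1 → g ≤ gm := by
    choose gb hgb using fun l : Fin r => exists_nat_gt (1 / (1 + ∑ e, ρ e * n e l / c 0 e))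
    refine ⟨∑ l, gb l, fun l g hlK hg => ?_⟩
    have h1 : 0 < 1 + ∑ e, ρ e * n e l / c 0 e := by linarith [hK l hlK]
    have h2 : (g : ℝ) < 1 / (1 + ∑ e, ρ e * n e l / c 0 e) := by
      rw [lt_div_iff₀ h1]; linarith
    have h3 : (g : ℝ) < gb l := h2.trans (hgb l)
    have h4 : g < gb l := by exact_mod_cast h3
    exact h4.le.trans (Finset.single_le_sum (f := gb) (fun _ _ => Nat.zero_le _) (Finset.mem_univ l))
  set gm : ℕ := gm₁ + gm₂ with hgmdef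
  have hgm : ∀ (b : Fin s) (g : ℕ), b ∉ I' → (1 - ρ (Fin.natAdd k b)) * g < 1 → g ≤ gm :=
    fun b g h1 h2 => (hgm₁ b g h1 h2).trans (Nat.le_add_right _ _)
  have hgm' : ∀ (l : Fin r) (g : ℕ), l ∈ K →
      (1 + ∑ e, ρ e * n e l / c 0 e) * g < 1 → g ≤ gm :=
    fun l g h1 h2 => (hgm₂ l g h1 h2).trans (Nat.le_add_left _ _)
  have hkap := H371.C.finite_vec h.rho 1
  set F : Set ℝ := ((fun N : Fin (k + s) → ℕ => 1 - ∑ e, ρ e * (N e : ℝ)) ''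
    {κ : Fin (k + s) → ℕ | ∑ e, ρ e * κ e ≤ 1 + C₀}) ∪
    (⋃ (b : Fin s), ⋃ (g : Fin (gm + 1)), (fun N : Fin (k + s) → ℕ =>
      1 - (1 - ρ (Fin.natAdd k b)) * ((g : ℕ) : ℝ) - ∑ e, ρ e * (N e : ℝ)) ''
      {κ : Fin (k + s) → ℕ | ∑ e, ρ e * κ e ≤ 1}) ∪
    ⋃ (g : Fin (gm + 1)), (fun N : Fin (k + s) → ℕ =>
      1 - ((g : ℕ) : ℝ) - ∑ e, ρ e * (N e : ℝ)) ''
      {κ : Fin (k + s) → ℕ | ∑ e, ρ e * κ e ≤ 1} with hF
  have hFfin : F.Finite := (((H371.C.finite_vec h.rho (1 + C₀)).image _).union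
    (finite_iUnion fun b => finite_iUnion fun g => hkap.image _)).union
      (finite_iUnion fun g => hkap.image _)
  set qq : Fin s ⊕ {l // l ∈ K} → ℕ := Sum.elim q fun l => qK l.1 l.2 with hqq
  set EE : Fin s ⊕ {l // l ∈ K} → Set Y := Sum.elim (fun b => range (ι b)) fun l => G l.1 with hEE
  set VV : ∀ b : Fin s ⊕ {l // l ∈ K}, Fin (qq b) → Set Y := fun b => match b with
    | Sum.inl b => V b
    | Sum.inr l => VK l.1 l.2 with hVV
  have hVVs : ∀ b l, IsSf (EE b) (VV b l) := by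
    rintro (b | l') l
    · exact hVs b l
    · exact hVKs l'.1 l'.2 l
  have hVVc : ∀ b l, IsPreconnected (VV b l) := by
    rintro (b | l') l
    · exact hVc b l
    · exact hVKc l'.1 l'.2 l
  -- the flips
  set B : Set ℕ := {j | J₀ ≤ j ∧ (∀ b, J₁ b ≤ j) ∧ ¬ DimLe (X (j + 1)) 1 {x | x ∈ f' j ⁻¹' Amin (f j) ∧
      (β ≤ 0 ∨ ∃ ν : Fin s, β ≤ ρ (Fin.natAdd k ν) ∧
        x ∈ zer (L (j + 1) (Fin.natAdd k ν)) (σ (j + 1) ν))} } with hB
  have hBfin : B.Finite := by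
    refine count_coreM (r := r) h.res.hyp h.res.conn hVVs hVVc val hmono hrel gm hFfin B ?_
    rintro j ⟨hj0, hjJ, hj⟩
    obtain ⟨pp, qq, s', a, hf, -⟩ := hflipD j
    have hXn : Nonempty (X (j + 1)).pt := hneX (j + 1)
    have hSan₀ : IsAn (X (j + 1)) univ (f' j ⁻¹' Amin (f j)) :=
      hf.small'.an.preimage (V := univ) fun x => hf.small'.holMap x
    have hsecj : ∀ ν, IsSecx (X (j + 1)) univ (L (j + 1) (Fin.natAdd k ν)) (σ (j + 1) ν) :=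
      fun ν => (h.flip (j + 1)).sec ν
    have hlbj : ∀ ν : Fin s, IsLBx (X (j + 1)) (L (j + 1) (Fin.natAdd k ν)) :=
      fun ν => (h.flip (j + 1)).flip.lb _
    -- the surface
    obtain ⟨S, hSS, hSan, hS1, hSν⟩ : ∃ S : Set (X (j + 1)).pt, S ⊆ f' j ⁻¹' Amin (f j) ∧
        IsAn (X (j + 1)) univ S ∧ ¬ DimLe (X (j + 1)) 1 S ∧ (β ≤ 0 ∨ ∃ ν : Fin s,
          β ≤ ρ (Fin.natAdd k ν) ∧ S ⊆ zer (L (j + 1) (Fin.natAdd k ν)) (σ (j + 1) ν)) := by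
      by_cases hβ : β ≤ 0
      · refine ⟨f' j ⁻¹' Amin (f j), subset_rfl, hSan₀, fun h1 => hj (h1.mono fun x hx => hx.1),
          Or.inl hβ⟩
      · by_contra hcon'
        push Not at hcon'
        refine hj ?_
        have h1 : ∀ ν : {ν : Fin s // β ≤ ρ (Fin.natAdd k ν)}, DimLe (X (j + 1)) 1
            (f' j ⁻¹' Amin (f j) ∩ zer (L (j + 1) (Fin.natAdd k ν.1)) (σ (j + 1) ν.1)) := by
          rintro ⟨ν, hν⟩
          by_contra hd
          have h2 : IsAn (X (j + 1)) univ (f' j ⁻¹' Amin (f j) ∩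
              zer (L (j + 1) (Fin.natAdd k ν)) (σ (j + 1) ν)) := by
            refine isAn_inter hSan₀ fun x _ => ?_
            obtain ⟨g, hg, hg'⟩ := H371.C.zer_eqn (hlbj ν) (hsecj ν) x
            exact ⟨1, fun _ => g, fun _ => hg, hg'.mono fun y hy => by
              rw [hy]; exact ⟨fun h _ => h, fun h => h 0⟩⟩
          exact (hcon' _ inter_subset_left h2 hd).2 ν hν inter_subset_right
        have h2 : DimLe (X (j + 1)) 1 (⋃ ν : {ν : Fin s // β ≤ ρ (Fin.natAdd k ν)},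
            (f' j ⁻¹' Amin (f j) ∩ zer (L (j + 1) (Fin.natAdd k ν.1)) (σ (j + 1) ν.1))) :=
          dimLe_iUnion h1
        refine h2.mono ?_
        rintro x ⟨hx1, hx2 | ⟨ν, hν, hx2⟩⟩
        · exact (hβ hx2).elim
        · exact mem_iUnion.2 ⟨⟨ν, hν⟩, hx1, hx2⟩
    have hSO : S ⊆ (v' (j + 1) '' O (j + 1))ᶜ := hSS.trans (hTS.sub_compl j)
    have hbI : ∀ b : Fin s, ¬ range (ι b) ⊆ Bad₁ → b ∉ I' := fun b hb hbI =>
      hb fun y hy => Or.inl (Or.inr (mem_iUnion₂.2 ⟨b, hbI, hy⟩))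
    have hltB : ∀ b : Fin s, ρ (Fin.natAdd k b) < 1 ∨ range (ι b) ⊆ Bad₁ := by
      intro b
      by_cases hb : range (ι b) ⊆ Bad₁
      · exact Or.inr hb
      · exact Or.inl (hblt b (hbI b hb))
    obtain ⟨x, N, Γ, D, w₀, r₀, φ, i, a', hW, hnice, hcen, hNν, hcase⟩ := germ_bdM
      (a := fun l => ∑ e, ρ e * n e l / c 0 e) (Ks := K) (C := C) (Bad₁ := Bad₁) stTAc_final
      (H19.stTD_of_core TD.stCore) H884.stDis h.res.emb h.res.surj h.res.hyp h.res.closed h.lb h.m0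
      h.rho h.sum h.kahler h.nef h.bd h.disj h.ne (hTS.tw j).tw (hTS.tw j).lb (hchK j)
      hcan hK hK2 hK3 hltB hCd (fun i => hsecj i)
      (fun i y hy a b ha hb => by
        have h1 := hTS.sec (j + 1) i y a b.1 b.2 hy ha hb.1 hb.2
        rw [mul_comm]
        exact h1) hSS hSan hSO hS1 ((hregB j hj0).mono fun x hx => ⟨hSS hx.1, hx.2⟩)
      (fun y x hyx => (hCr (j + 1) y x).1 hyx) (hbad j hj0) subset_union_left hBc hC
      (fun l hl y hy => Or.inr (mem_iUnion₂.2 ⟨l, hl, hy⟩))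
    have hval : val Γ D (j + 1) = ∑ e, ρ e / Q' (j + 1) e * x e := by
      simp only [hvaldef]
      rw [hal' Γ D hW]
      refine Finset.sum_congr rfl fun e _ => ?_
      rw [(hα1 Γ D hW (j + 1)).ord _ _ _ _ _ _ hnice e]
      have h1 : (Q' (j + 1) e : ℝ) ≠ 0 := by
        have := ((hTS.tw j).tw e).hQ
        exact_mod_cast (Nat.one_le_iff_ne_zero.1 this)
      push_cast
      field_simp
    have hlt : val Γ D j < val Γ D (j + 1) := by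
      simp only [hvaldef]
      rw [hal' Γ D hW, hal' Γ D hW]
      exact hα3 Γ D hW j ⟨w₀, r₀, φ, i, a', x, hnice, fun w hw hw0 => hSS (hcen w hw hw0)⟩
    have hNnn : 0 ≤ ∑ e, ρ e * (N e : ℝ) := Finset.sum_nonneg fun e _ =>
      mul_nonneg (h.rho e).le (Nat.cast_nonneg _)
    refine ⟨Γ, D, hW, hlt, ?_, ?_⟩
    · rw [hval]
      rcases hcase with ⟨h1, l, w₁, r₁, hpar, hw₁⟩ | ⟨b, g, hpos, hg1, hbB, hg2, h1, -⟩ |
        ⟨l, hl, g, hg1, hg2, h1, -⟩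
      · left; left
        refine ⟨N, ?_, h1.symm⟩
        show ∑ e, ρ e * (N e : ℝ) ≤ 1 + C₀
        have h2 := hC₀.2 l Γ D w₁ r₁ hW hpar hw₁
        have h3 := hmono0 Γ D hW (j + 1)
        rw [hval] at h3
        linarith
      · left; right
        refine mem_iUnion.2 ⟨b, mem_iUnion.2 ⟨⟨g, by have := hgm b g (hbI b hbB) hg2; omega⟩, N, ?_, h1.symm⟩⟩
        show ∑ e, ρ e * (N e : ℝ) ≤ 1
        have h2 : 0 ≤ (1 - ρ (Fin.natAdd k b)) * (g : ℝ) :=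
          mul_nonneg (by linarith [hblt b (hbI b hbB)]) (Nat.cast_nonneg _)
        linarith
      · right
        have h2 : 0 ≤ (1 + ∑ e, ρ e * n e l / c 0 e) * (g : ℝ) :=
          mul_nonneg (by linarith [hK l hl]) (Nat.cast_nonneg _)
        refine mem_iUnion.2 ⟨⟨g, by have := hgm' l g hl (by linarith); omega⟩, N, ?_, h1.symm⟩
        show ∑ e, ρ e * (N e : ℝ) ≤ 1
        linarith
    · rcases hcase with ⟨-, h1⟩ | ⟨b, g, hpos, hg1, hbB, hg2, h1, w₁, hw₁, hw₁0, Ψ, c', r', w', hpar,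
        hc0, hbw, hw'0, hWR, hnO⟩ | ⟨l, hl, g, hg1, hg2, h1, w₁, hw₁, hw₁0, Ψ, c', r', w', hpar,
        hc0, hbw, hw'0, hWR, hnO⟩
      · exact Or.inl h1
      · right
        refine ⟨Sum.inl b, g, hg1, hgm b g (hbI b hbB) hg2, w₁, hw₁, hw₁0, Ψ, c', r', w', hpar, hc0, hbw, hw'0, hWR, ?_⟩
        have hβb : β < ρ (Fin.natAdd k b) := by
          rcases hSν with hβ | ⟨ν, hβν, hSν⟩
          · exact hβ.trans_lt (h.rho _)
          · have h2 : 1 ≤ N (Fin.natAdd k ν) := hNν ν hSν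
            have h3 : ρ (Fin.natAdd k ν) * (N (Fin.natAdd k ν) : ℝ) ≤ ∑ e, ρ e * (N e : ℝ) :=
              Finset.single_le_sum (f := fun e => ρ e * (N e : ℝ))
                (fun e _ => mul_nonneg (h.rho e).le (Nat.cast_nonneg _)) (Finset.mem_univ _)
            have h4 : (1 : ℝ) ≤ N (Fin.natAdd k ν) := by exact_mod_cast h2
            have h5 : (1 : ℝ) ≤ g := by exact_mod_cast hg1
            have h6 := h.rho (Fin.natAdd k ν)
            have h7 := hblt b (hbI b hbB)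
            have h8 : ρ (Fin.natAdd k ν) ≤ ρ (Fin.natAdd k ν) * (N (Fin.natAdd k ν) : ℝ) := by
              nlinarith
            have h9 : 1 - ρ (Fin.natAdd k b) ≤ (1 - ρ (Fin.natAdd k b)) * (g : ℝ) := by
              nlinarith
            linarith
        exact H60.Z.stMatch Y (range (ι b)) (O (j + 1)) (q b) (V b) (hVs b)
          (hVthin b (hbI b hbB) hβb (j + 1) (by have := hjJ b; omega)) Ψ c' r' hpar hc0 hnO
      · right
        have h2 : 0 ≤ ∑ e, ρ e * (N e : ℝ) := Finset.sum_nonneg fun e _ =>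
          mul_nonneg (h.rho e).le (Nat.cast_nonneg _)
        refine ⟨Sum.inr ⟨l, hl⟩, g, hg1, hgm' l g hl (by linarith), w₁, hw₁, hw₁0, Ψ, c', r', w',
          hpar, hc0, hbw, hw'0, hWR, ?_⟩
        exact H60.Z.stMatch Y (G l) Cᶜ (qK l hl) (VK l hl) (hVKs l hl)
          ((hVKt l hl).mono fun y hy => ⟨⟨hy.1.1, not_not.1 hy.1.2⟩, hy.2⟩) Ψ c' r' hpar hc0
          fun z hz h0 h1 h3 => h3 (hnO z hz h0 h1)
  -- the conclusion
  obtain ⟨J₂, hJ₂⟩ := hBfin.bddAbove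
  refine ⟨J₀ + (J₂ + 1 + ∑ b, J₁ b), fun j hj => ?_⟩
  by_contra hd
  have h1 : j ∈ B := ⟨by omega, fun b => by
    have := Finset.single_le_sum (f := J₁) (fun _ _ => Nat.zero_le _) (Finset.mem_univ b)
    omega, hd⟩
  have h2 := hJ₂ h1
  omega

end Vale.Agent.P277.H335.MM
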