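import Vale.Agent.P277.H60.Z.Match
import Vale.Agent.P277.H29.Cls
import Vale.Agent.P277.H619.T3.ThinM
import Vale.Agent.P277.H762.L3

/-!
# P277, (T7): the intersection of a smooth hypersurface `G` of `Y` with an analytic set `C` is, outside
of a set of dimension `≤ 1`, the union of finitely many connected smooth surfaces
-/

open scoped Manifold ContDiff Topology
open Vale.Agent.P272.K Vale.Agent.P285.H281.FD Set Filter Metric

noncomputable section

namespace Vale.Agent.P277.H335.MM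

open Vale.Agent.P277 Vale.Agent.P277.T2 Vale.Agent.P277.T3 Vale.Agent.P277.H615
open Vale.Agent.P277.PH Vale.Agent.P277.H60.X Vale.Agent.P277.H60.Z

theorem continuous_z3 : Continuous z3 := by
  refine continuous_pi fun i => ?_
  fin_cases i
  · exact continuous_const
  · exact continuous_apply 0
  · exact continuous_apply 1
  · exact continuous_apply 2

theorem continuous_l3 : Continuous l3 := by
  refine continuous_pi fun i => ?_
  fin_cases i
  · exact continuous_apply 1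
  · exact continuous_apply 2
  · exact continuous_apply 3

theorem z3_an (u : Cm 3) : AnalyticAt ℂ z3 u := by
  refine AnalyticAt.pi fun k => ?_
  fin_cases k
  · exact analyticAt_const
  · exact (ContinuousLinearMap.proj (R := ℂ) (φ := fun _ : Fin 3 => ℂ) 0).analyticAt u
  · exact (ContinuousLinearMap.proj (R := ℂ) (φ := fun _ : Fin 3 => ℂ) 1).analyticAt u
  · exact (ContinuousLinearMap.proj (R := ℂ) (φ := fun _ : Fin 3 => ℂ) 2).analyticAt u

theorem l3_an (z : Cm 4) : AnalyticAt ℂ l3 z := by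
  refine AnalyticAt.pi fun k => ?_
  fin_cases k
  · exact (ContinuousLinearMap.proj (R := ℂ) (φ := fun _ : Fin 4 => ℂ) 1).analyticAt z
  · exact (ContinuousLinearMap.proj (R := ℂ) (φ := fun _ : Fin 4 => ℂ) 2).analyticAt z
  · exact (ContinuousLinearMap.proj (R := ℂ) (φ := fun _ : Fin 4 => ℂ) 3).analyticAt z

/-- functions on `ℂ³` -/
theorem holF_cm {g : Cm 3 → ℂ} {u : Cm 3} (h : AnalyticAt ℂ g u) : HolF 3 g u := by
  intro e he
  have h1 : e = OpenPartialHomeomorph.refl (Cm 3) := by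
    have := he.1
    rwa [chartedSpaceSelf_atlas] at this
  subst h1
  exact h

variable {Y : Type} [TopologicalSpace Y] [ChartedSpace (Cm 4) Y] [IsManifold 𝓘(ℂ, Cm 4) ω Y]
  {G C : Set Y}

omit [IsManifold 𝓘(ℂ, Cm 4) ω Y] in
/-- pulling back analytic sets -/
theorem isAnAt_z3 {Ψ : Cm 4 → Y} {c : Cm 4} {r : ℝ} (h : IsPar G Ψ c r)
    (hC : ∀ y, IsAnAt 4 C y) {u : Cm 3} (hu : z3 u ∈ ball c r) :
    IsAnAt 3 {u | Ψ (z3 u) ∈ C} u := by
  obtain ⟨k, f, hf, hev⟩ := hC (Ψ (z3 u))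
  have hc : ContinuousAt (fun u => Ψ (z3 u)) u :=
    ContinuousAt.comp (g := Ψ) (h.cont _ hu) continuous_z3.continuousAt
  refine ⟨k, fun i u => f i (Ψ (z3 u)), fun i => holF_cm ?_, hc.eventually hev⟩
  set e := chartAt (Cm 4) (Ψ (z3 u)) with hedef
  have he : At e (Ψ (z3 u)) := ⟨chart_mem_atlas _ _, mem_chart_source _ _⟩
  have h1 := (h.an _ hu e he).1
  have h2 : AnalyticAt ℂ (fun u => e (Ψ (z3 u))) u :=
    AnalyticAt.fun_comp (g := fun z => e (Ψ z)) (f := z3) h1 (z3_an u)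
  have h3 : AnalyticAt ℂ (fun u => f i (e.symm (e (Ψ (z3 u))))) u :=
    AnalyticAt.fun_comp (g := fun z => f i (e.symm z)) (f := fun u => e (Ψ (z3 u))) (hf i e he) h2
  refine h3.congr ?_
  filter_upwards [hc.eventually (e.open_source.mem_nhds he.2)] with u' hu'
  rw [e.left_inv hu']

omit [IsManifold 𝓘(ℂ, Cm 4) ω Y] in
/-- the complement is dense -/
theorem dense_z3 {Ψ : Cm 4 → Y} {c : Cm 4} {r : ℝ} (h : IsPar G Ψ c r)
    (hd : G ⊆ closure (G \ C)) :
    {u | z3 u ∈ ball c r} ⊆ closure {u | Ψ (z3 u) ∈ C}ᶜ := by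
  intro u hu
  rw [mem_closure_iff_nhds]
  intro N hN
  obtain ⟨N', hN'N, hN', huN⟩ := _root_.mem_nhds_iff.1 hN
  have h1 : IsOpen (Ψ '' (ball c r ∩ l3 ⁻¹' N')) :=
    h.openMap _ inter_subset_left (isOpen_ball.inter (hN'.preimage continuous_l3))
  have h2 : Ψ (z3 u) ∈ Ψ '' (ball c r ∩ l3 ⁻¹' N') :=
    mem_image_of_mem _ ⟨hu, by show l3 (z3 u) ∈ N'; rw [l3_z3]; exact huN⟩
  have h3 : Ψ (z3 u) ∈ G := (h.mem _ hu).2 rfl
  obtain ⟨y, ⟨z, ⟨hz, hzN⟩, rfl⟩, hyG, hyC⟩ := mem_closure_iff_nhds.1 (hd h3) _ (h1.mem_nhds h2)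
  have hz0 : z 0 = 0 := (h.mem z hz).1 hyG
  refine ⟨l3 z, hN'N hzN, ?_⟩
  show Ψ (z3 (l3 z)) ∉ C
  rw [z3_l3 hz0]
  exact hyC

/-- the generic points are smooth -/
theorem ad_of_hyp {Ψ : Cm 4 → Y} {c : Cm 4} {r : ℝ} (h : IsPar G Ψ c r) {u : Cm 3}
    (hu : z3 u ∈ ball c r) (hh : IsHypAt 3 {u | Ψ (z3 u) ∈ C} u) :
    ∃ Ψ' c' r', IsAd G (G ∩ C) Ψ' c' r' ∧ Ψ' c' = Ψ (z3 u) := by
  obtain ⟨e, he, g, hg, hg0, hgd, hS⟩ := hh
  have h1 : e = OpenPartialHomeomorph.refl (Cm 3) := by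
    have := he.1
    rwa [chartedSpaceSelf_atlas] at this
  subst h1
  have hg : AnalyticAt ℂ g u := hg
  have hg0 : g u = 0 := hg0
  have hgd : fderiv ℂ g u ≠ 0 := hgd
  have hS : ∀ᶠ u' in 𝓝 u, Ψ (z3 u') ∈ C ↔ g u' = 0 := hS
  obtain ⟨E, hE, hEan, hEsymm, hEg⟩ := HY.exists_straight hg hgd
  set Φ : Cm 4 → Cm 4 := fun z => ![z 0, E.symm (l3 z) 0, E.symm (l3 z) 1, E.symm (l3 z) 2] with hΦ
  set Λ : Cm 4 → Cm 4 := fun z => ![z 0, E (l3 z) 0, E (l3 z) 1, E (l3 z) 2] with hΛ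
  set d : Cm 4 := z3 (E u) with hd
  have hl3d : l3 d = E u := l3_z3 _
  have hEu : E u ∈ E.target := E.map_source hE
  have hΦ0 : ∀ z, z 0 = 0 → Φ z = z3 (E.symm (l3 z)) := by
    intro z hz
    funext i
    fin_cases i
    · exact hz
    · rfl
    · rfl
    · rfl
  have hΦd : Φ d = z3 u := by
    rw [hΦ0 d rfl, hl3d, E.left_inv hE]
  have hl3Φ : ∀ z, l3 (Φ z) = E.symm (l3 z) := by
    intro z
    funext i
    fin_cases i <;> rfl
  have hEs : AnalyticAt ℂ (fun z => E.symm (l3 z)) d :=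
    AnalyticAt.fun_comp (g := E.symm) (f := l3) (hEsymm _ (by rw [hl3d]; exact hEu)) (l3_an d)
  have hp0 : ∀ z : Cm 4, AnalyticAt ℂ (fun z : Cm 4 => z 0) z := fun z =>
    (ContinuousLinearMap.proj (R := ℂ) (φ := fun _ : Fin 4 => ℂ) 0).analyticAt z
  have hΦa : AnalyticAt ℂ Φ d := by
    rw [analyticAt_pi_iff] at hEs
    refine AnalyticAt.pi fun k => ?_
    fin_cases k
    · exact hp0 d
    · exact hEs 0
    · exact hEs 1
    · exact hEs 2
  have hΛa : AnalyticAt ℂ Λ (Φ d) := by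
    have h2 : AnalyticAt ℂ (fun z => E (l3 z)) (Φ d) :=
      AnalyticAt.fun_comp (g := E) (f := l3) (hEan _ (by
        rw [hl3Φ, hl3d]; exact E.map_target hEu)) (l3_an _)
    rw [analyticAt_pi_iff] at h2
    refine AnalyticAt.pi fun k => ?_
    fin_cases k
    · exact hp0 _
    · exact h2 0
    · exact h2 1
    · exact h2 2
  have htgt : ∀ᶠ z in 𝓝 d, l3 z ∈ E.target :=
    continuous_l3.continuousAt.eventually_mem (E.open_target.mem_nhds (by rw [hl3d]; exact hEu))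
  have hleft : ∀ᶠ z in 𝓝 d, Λ (Φ z) = z := by
    filter_upwards [htgt] with z hz
    have h3 : E (l3 (Φ z)) = l3 z := by rw [hl3Φ, E.right_inv hz]
    funext i
    fin_cases i
    · rfl
    · show E (l3 (Φ z)) 0 = z 1
      rw [h3]; rfl
    · show E (l3 (Φ z)) 1 = z 2
      rw [h3]; rfl
    · show E (l3 (Φ z)) 2 = z 3
      rw [h3]; rfl
  have hiso : LocIso Φ d := ⟨hΦa, det_ne_zero_of_inj (inj_of_leftInv hΦa hΛa hleft)⟩
  have hP : ∀ᶠ z in 𝓝 d, z 0 = 0 → (Ψ (Φ z) ∈ C ↔ z 1 = 0) := by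
    have h3 : Tendsto (fun z => E.symm (l3 z)) (𝓝 d) (𝓝 u) := by
      have := hEs.continuousAt.tendsto
      rwa [hl3d, E.left_inv hE] at this
    filter_upwards [h3.eventually hS, htgt] with z k1 k2 hz0
    rw [hΦ0 z hz0, k1, ← hEg, E.right_inv k2]
    rfl
  obtain ⟨s, hs, hpar, hPs⟩ := H29.FC.par_comp h (Φ := Φ) (d := d) rfl hiso (by rw [hΦd]; exact hu)
    (Eventually.of_forall fun z => Iff.rfl) hP
  refine ⟨fun z => Ψ (Φ z), d, s, ⟨hpar, ?_, fun z hz => ?_⟩, congrArg Ψ hΦd⟩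
  · show (E u) 0 = 0
    rw [hEg, hg0]
  · constructor
    · rintro ⟨k1, k2⟩
      have k3 := (hpar.mem z hz).1 k1
      exact ⟨k3, (hPs z hz k3).1 k2⟩
    · rintro ⟨k1, k2⟩
      exact ⟨(hpar.mem z hz).2 k1, (hPs z hz k1).2 k2⟩

/-- intersections of analytic sets -/
theorem isAnAt_inter {n : ℕ} {M : Type} [TopologicalSpace M] [ChartedSpace (Cm n) M]
    {S S' : Set M} {y : M} (h : IsAnAt n S y) (h' : IsAnAt n S' y) : IsAnAt n (S ∩ S') y := by
  obtain ⟨k, f, h1, h2⟩ := h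
  obtain ⟨k', f', h1', h2'⟩ := h'
  refine ⟨k + k', Fin.append f f', fun i => ?_, ?_⟩
  · refine Fin.addCases (fun i => ?_) (fun i => ?_) i
    · rw [Fin.append_left]; exact h1 i
    · rw [Fin.append_right]; exact h1' i
  · filter_upwards [h2, h2'] with y' k1 k2
    rw [mem_inter_iff, k1, k2]
    constructor
    · rintro ⟨m1, m2⟩ i
      refine Fin.addCases (fun i => ?_) (fun i => ?_) i
      · rw [Fin.append_left]; exact m1 i
      · rw [Fin.append_right]; exact m2 i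
    · intro m
      exact ⟨fun i => by have := m (Fin.castAdd k' i); rwa [Fin.append_left] at this,
        fun i => by have := m (Fin.natAdd k i); rwa [Fin.append_right] at this⟩

omit [IsManifold 𝓘(ℂ, Cm 4) ω Y] in
/-- restricting adapted coordinates -/
theorem ad_restrict {E V : Set Y} {Ψ : Cm 4 → Y} {c : Cm 4} {r : ℝ} (h : IsAd E V Ψ c r)
    {z : Cm 4} (hz : z ∈ ball c r) (h0 : z 0 = 0) (h1 : z 1 = 0) : ∃ r', IsAd E V Ψ z r' := by
  obtain ⟨ρ, hρ, hsub⟩ := Metric.isOpen_iff.1 isOpen_ball z hz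
  exact ⟨ρ, h.par.restrict h0 hρ hsub, h1, fun w hw => h.mem w (hsub hw)⟩

/-- adapted coordinates are surface charts of the complex space `Y` -/
theorem ad_surf [T2Space Y] [CompactSpace Y] {E V : Set Y} {Ψ : Cm 4 → Y} {c : Cm 4} {r : ℝ}
    (h : IsAd E V Ψ c r) : IsSurfX (XH 4 Y) V (Ψ c) := by
  have hS : SChart (XH 4 Y) V Ψ (ball c r) := by
    refine ⟨isOpen_ball, h.par.inj, h.par.openMap, h.par.cont, fun z hz F => ?_, h.mem⟩
    obtain ⟨e, θ, he, hθ, hzθ, hθs⟩ := par_inv h.par hz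
    have h1 := (h.par.an z hz e he).1
    constructor
    · intro hF
      have h2 : AnalyticAt ℂ (fun w => F (e.symm (e (Ψ w)))) z :=
        AnalyticAt.fun_comp (g := fun z => F (e.symm z)) (f := fun w => e (Ψ w)) (hF e he) h1
      refine h2.congr ?_
      filter_upwards [(h.par.cont z hz).eventually (e.open_source.mem_nhds he.2)] with w hw
      rw [e.left_inv hw]
    · intro hF
      refine holF_of he ?_
      have hzt : e (Ψ z) ∈ θ.target := by
        have := θ.map_source hzθ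
        rwa [hθ] at this
      have hθz : θ.symm (e (Ψ z)) = z := by
        have := θ.left_inv hzθ
        rwa [hθ] at this
      have h2 : AnalyticAt ℂ (fun x => F (Ψ (θ.symm x))) (e (Ψ z)) :=
        AnalyticAt.fun_comp (g := fun w => F (Ψ w)) (f := θ.symm) (by rw [hθz]; exact hF)
          (hθs _ hzt)
      refine h2.congr ?_
      have h3 : ContinuousAt θ.symm (e (Ψ z)) := θ.continuousAt_symm hzt
      have h4 : ∀ᶠ x in 𝓝 (e (Ψ z)), Ψ (θ.symm x) ∈ e.source := by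
        have h5 : ContinuousAt (fun x => Ψ (θ.symm x)) (e (Ψ z)) := by
          refine ContinuousAt.comp (g := Ψ) ?_ h3
          rw [hθz]; exact h.par.cont z hz
        refine h5.eventually_mem ?_
        rw [hθz]; exact e.open_source.mem_nhds he.2
      filter_upwards [h4, θ.open_target.mem_nhds hzt] with x k1 k2
      have k3 : e (Ψ (θ.symm x)) = x := by
        have := θ.right_inv k2
        rwa [hθ] at this
      rw [← k3, e.left_inv k1]
      rw [k3]
  exact hS.surf (mem_ball_self h.par.pos) h.par.zero h.one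

/-- a connected smooth hypersurface which is not contained in the analytic set `C` -/
theorem dense_of_conn (hG : IsHyp G) (hGp : IsPreconnected G) (han : ∀ y, IsAnAt 4 C y)
    (hne : ¬ G ⊆ C) : G ⊆ closure (G \ C) := by
  set U : Set Y := {y | ∀ᶠ y' in 𝓝 y, y' ∈ G → y' ∈ C} with hU
  set V : Set Y := {y | ∀ᶠ y' in 𝓝 y, y' ∈ G → y' ∉ U} with hV
  have hUo : IsOpen U := isOpen_iff_eventually.2 fun y hy => hy.eventually_nhds
  have hVo : IsOpen V := isOpen_iff_eventually.2 fun y hy => hy.eventually_nhds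
  have hUV : G ⊆ U ∪ V := by
    intro y hy
    by_cases hyU : y ∈ U
    · exact Or.inl hyU
    right
    obtain ⟨Ψ, c, r, h, rfl⟩ := hG y hy
    have hc3 : z3 (l3 c) = c := z3_l3 h.zero
    have hu : z3 (l3 c) ∈ ball c r := by rw [hc3]; exact mem_ball_self h.pos
    obtain ⟨k, f, hf, hev⟩ := isAnAt_z3 h han hu
    have hfa : ∀ i, AnalyticAt ℂ (f i) (l3 c) := fun i =>
      hf i (OpenPartialHomeomorph.refl (Cm 3)) ⟨by rw [chartedSpaceSelf_atlas], trivial⟩
    obtain ⟨ρ, hρ, hb⟩ := Metric.eventually_nhds_iff_ball.1 (hev.and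
      ((eventually_all.2 fun i => (hfa i).eventually_analyticAt).and
        (continuous_z3.continuousAt.eventually (isOpen_ball.mem_nhds hu))))
    have hN : IsOpen (Ψ '' (ball c r ∩ l3 ⁻¹' ball (l3 c) ρ)) :=
      h.openMap _ inter_subset_left (isOpen_ball.inter (isOpen_ball.preimage continuous_l3))
    filter_upwards [hN.mem_nhds ⟨c, ⟨mem_ball_self h.pos, mem_ball_self hρ⟩, rfl⟩]
    rintro _ ⟨z, ⟨hz, hzρ⟩, rfl⟩ hzG hzU
    have hz0 : z 0 = 0 := (h.mem z hz).1 hzG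
    have hzz : z3 (l3 z) = z := z3_l3 hz0
    -- the equations vanish near `l3 z`
    have h1 : ∀ i, f i =ᶠ[𝓝 (l3 z)] 0 := by
      intro i
      have h2 : ContinuousAt (fun u => Ψ (z3 u)) (l3 z) := by
        refine ContinuousAt.comp (g := Ψ) ?_ continuous_z3.continuousAt
        rw [hzz]; exact h.cont z hz
      have h3 : ∀ᶠ u in 𝓝 (l3 z), Ψ (z3 u) ∈ G → Ψ (z3 u) ∈ C := by
        have h4 : ∀ᶠ y' in 𝓝 (Ψ (z3 (l3 z))), y' ∈ G → y' ∈ C := by
          rw [hzz]; exact hzU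
        exact h2.eventually h4
      filter_upwards [h3, isOpen_ball.mem_nhds hzρ] with u k1 k2
      obtain ⟨k3, -, k4⟩ := hb u k2
      exact k3.1 (k1 ((h.mem _ k4).2 rfl)) i
    have h2 : ∀ i, EqOn (f i) 0 (ball (l3 c) ρ) := by
      intro i
      have h3 : AnalyticOnNhd ℂ (f i) (ball (l3 c) ρ) := fun u hu => (hb u hu).2.1 i
      exact h3.eqOn_zero_of_preconnected_of_eventuallyEq_zero (convex_ball _ _).isPreconnected hzρ
        (h1 i)
    refine hyU ?_
    filter_upwards [hN.mem_nhds ⟨c, ⟨mem_ball_self h.pos, mem_ball_self hρ⟩, rfl⟩]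
    rintro _ ⟨w, ⟨hw, hwρ⟩, rfl⟩ hwG
    have hww : z3 (l3 w) = w := z3_l3 ((h.mem w hw).1 hwG)
    have h3 := (hb (l3 w) hwρ).1.2 fun i => h2 i hwρ
    have h4 : Ψ (z3 (l3 w)) ∈ C := h3
    rwa [hww] at h4
  have hGU : ¬ (G ∩ U).Nonempty := by
    intro h1
    by_cases h2 : (G ∩ V).Nonempty
    · obtain ⟨y, hy, hyU, hyV⟩ := hGp U V hUo hVo hUV h1 h2
      exact (hyV.self_of_nhds hy) hyU
    · refine hne fun y hy => ?_
      rcases hUV hy with h3 | h3
      · exact h3.self_of_nhds hy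
      · exact (h2 ⟨y, hy, h3⟩).elim
  intro y hy
  rw [mem_closure_iff_frequently]
  intro hcon
  refine hGU ⟨y, hy, ?_⟩
  filter_upwards [hcon] with y' h1 h2
  by_contra h3
  exact h1 ⟨h2, h3⟩

/-- (SURF) -/
theorem stSurf [T2Space Y] [CompactSpace Y] (hG : IsHyp G) (hGc : IsClosed G) (hC : IsClosed C)
    (han : ∀ y, IsAnAt 4 C y) (hd : G ⊆ closure (G \ C)) [Nonempty Y] :
    ∃ (q : ℕ) (V : Fin q → Set Y), (∀ l, IsPreconnected (V l)) ∧ (∀ l, IsSf G (V l)) ∧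
      ThinM 4 1 ((G ∩ C) \ ⋃ l, V l) := by
  have : SecondCountableTopology Y := ChartedSpace.secondCountable_of_sigmaCompact (Cm 4) Y
  set S : Set Y := G ∩ C with hSdef
  set Sm : Set Y := {y | ∃ Ψ c r, IsAd G S Ψ c r ∧ Ψ c = y} with hSm
  have hSmS : Sm ⊆ S := by
    rintro y ⟨Ψ, c, r, h, rfl⟩
    exact (h.mem c (mem_ball_self h.par.pos)).2 ⟨h.par.zero, h.one⟩
  have hSmz : ∀ {Ψ c r}, IsAd G S Ψ c r → ∀ z ∈ ball c r, Ψ z ∈ S → Ψ z ∈ Sm := by
    intro Ψ c r h z hz hzS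
    obtain ⟨h0, h1⟩ := (h.mem z hz).1 hzS
    obtain ⟨r', h'⟩ := ad_restrict h hz h0 h1
    exact ⟨Ψ, z, r', h', rfl⟩
  have hScl : IsClosed S := hGc.inter hC
  set T : Set Y := S \ Sm with hTdef
  have hTcl : IsClosed T := by
    rw [← isOpen_compl_iff, isOpen_iff_mem_nhds]
    intro y hy
    by_cases hyS : y ∈ S
    · have hySm : y ∈ Sm := by
        by_contra hcon
        exact hy ⟨hyS, hcon⟩
      obtain ⟨Ψ, c, r, h, rfl⟩ := hySm
      have h1 : IsOpen (Ψ '' ball c r) := h.par.openMap _ Subset.rfl isOpen_ball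
      filter_upwards [h1.mem_nhds (mem_image_of_mem _ (mem_ball_self h.par.pos))]
      rintro _ ⟨z, hz, rfl⟩ ⟨k1, k2⟩
      exact k2 (hSmz h z hz k1)
    · filter_upwards [hScl.isOpen_compl.mem_nhds hyS] with y' hy' h2
      exact hy' h2.1
  have hTthin : ThinM 4 1 T := by
    refine thinM_of_local fun y hy => ?_
    obtain ⟨Ψ, c, r, h, rfl⟩ := hG y hy.1.1
    refine ⟨Ψ '' ball c r, (h.openMap _ Subset.rfl isOpen_ball).mem_nhds
      (mem_image_of_mem _ (mem_ball_self h.pos)), ?_⟩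
    obtain ⟨Ω, g, h1, h2, h3⟩ := HY.stHyp (Cm 3) {u | z3 u ∈ ball c r} {u | Ψ (z3 u) ∈ C}
      (isOpen_ball.preimage continuous_z3) (fun u hu => isAnAt_z3 h han hu) (dense_z3 h hd)
    refine ⟨fun l => {p | p ∈ Ω l ∧ z3 (g l p) ∈ ball c r}, fun l p => Ψ (z3 (g l p)),
      fun l => ?_, fun l p hp => ⟨?_, fun e he => ?_⟩, ?_⟩
    · rw [isOpen_iff_mem_nhds]
      rintro p ⟨hp, hp'⟩
      have h4 : ContinuousAt (fun p => z3 (g l p)) p :=
        ContinuousAt.comp (g := z3) continuous_z3.continuousAt (h2 l p hp).1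
      filter_upwards [(h1 l).mem_nhds hp, h4.eventually (isOpen_ball.mem_nhds hp')] with p' k1 k2
      exact ⟨k1, k2⟩
    · exact ContinuousAt.comp (g := Ψ) (h.cont _ hp.2)
        (ContinuousAt.comp (g := z3) continuous_z3.continuousAt (h2 l p hp.1).1)
    · have h4 : AnalyticAt ℂ (g l) p :=
        (h2 l p hp.1).2 (OpenPartialHomeomorph.refl (Cm 3)) ⟨by
          rw [chartedSpaceSelf_atlas], trivial⟩
      exact AnalyticAt.fun_comp (g := fun z => e (Ψ z)) (f := fun p => z3 (g l p))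
        (h.an _ hp.2 e he).1 (AnalyticAt.fun_comp (g := z3) (z3_an _) h4)
    · rintro _ ⟨⟨z, hz, rfl⟩, hzS, hzSm⟩
      have hz0 : z 0 = 0 := (h.mem z hz).1 hzS.1
      have hzz : z3 (l3 z) = z := z3_l3 hz0
      obtain ⟨l, p, hp, hpl⟩ := mem_iUnion.1 (h3 (a := l3 z) ⟨by
          show z3 (l3 z) ∈ ball c r
          rw [hzz]; exact hz, by
          show Ψ (z3 (l3 z)) ∈ C
          rw [hzz]; exact hzS.2, fun hcon => hzSm (by
          obtain ⟨Ψ', c', r', k1, k2⟩ := ad_of_hyp h (u := l3 z) (by rw [hzz]; exact hz) hcon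
          exact ⟨Ψ', c', r', k1, by rw [k2, hzz]⟩)⟩)
      refine mem_iUnion.2 ⟨l, p, ⟨hp, ?_⟩, ?_⟩
      · rw [hpl, hzz]; exact hz
      · show Ψ (z3 (g l p)) = Ψ z
        rw [hpl, hzz]
  have hST : S \ T = Sm := by
    ext y
    constructor
    · rintro ⟨h1, h2⟩
      by_contra h3
      exact h2 ⟨h1, h3⟩
    · exact fun h => ⟨hSmS h, fun h2 => h2.2 h⟩
  have hSm2 : ThinM 4 2 Sm := by
    refine thinM_of_local fun y hy => ?_
    obtain ⟨Ψ, c, r, h, rfl⟩ := hy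
    refine ⟨Ψ '' ball c r, (h.par.openMap _ Subset.rfl isOpen_ball).mem_nhds
      (mem_image_of_mem _ (mem_ball_self h.par.pos)), fun _ => {p | zz p ∈ ball c r},
      fun _ p => Ψ (zz p), fun _ => isOpen_ball.preimage zzc, fun _ p hp => ⟨?_, fun e he => ?_⟩,
      ?_⟩
    · exact ContinuousAt.comp (g := Ψ) (h.par.cont _ hp) zzc.continuousAt
    · exact AnalyticAt.fun_comp (g := fun z => e (Ψ z)) (h.par.an _ hp e he).1 (zz_an p)
    · rintro _ ⟨⟨z, hz, rfl⟩, hzS⟩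
      obtain ⟨h0, h1⟩ := (h.mem z hz).1 (hSmS hzS)
      have h2 : zz (H60.X.lst z) = z := zz_lst h0 h1
      refine mem_iUnion.2 ⟨0, H60.X.lst z, ?_, ?_⟩
      · show zz (H60.X.lst z) ∈ ball c r
        rw [h2]; exact hz
      · show Ψ (zz (H60.X.lst z)) = Ψ z
        rw [h2]
  have hS2 : ThinM 4 2 S := by
    refine (hSm2.union (hTthin.le one_le_two)).mono fun y hy => ?_
    by_cases h1 : y ∈ Sm
    · exact Or.inl h1
    · exact Or.inr ⟨hy, h1⟩
  obtain ⟨K, c, hcomp⟩ : ∃ (K : ℕ) (c : Fin K → Y), ∀ x ∈ S \ T, ∃ i,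
      x ∈ connectedComponentIn (S \ T) (c i) :=
    H762.stL3 (XH 4 Y) S T (isAn_of fun y => isAnAt_inter (isAnAt_hyp hG hGc y) (han y))
      (H60.Z.thinM_iff.1 hS2) hTcl sdiff_subset (H60.Z.thinM_iff.1 hTthin) (fun x hx => by
        have hx' : x ∈ Sm := by rw [← hST]; exact hx
        obtain ⟨Ψ, c, r, h, rfl⟩ := hx'
        exact ad_surf h)
  rw [hST] at hcomp
  refine ⟨K, fun l => connectedComponentIn Sm (c l), fun l => isPreconnected_connectedComponentIn,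
    fun l y hy => ?_, hTthin.mono ?_⟩
  · obtain ⟨Ψ, c', r, h, rfl⟩ := connectedComponentIn_subset _ _ hy
    refine ⟨Ψ, c', r, ⟨h.par, h.one, fun z hz => ⟨fun h1 =>
      (h.mem z hz).1 (hSmS (connectedComponentIn_subset _ _ h1)), fun h1 => ?_⟩⟩, rfl⟩
    show Ψ z ∈ connectedComponentIn Sm (c l)
    rw [connectedComponentIn_eq hy]
    have hconv : Convex ℝ (ball c' r ∩ {z : Cm 4 | z 0 = 0 ∧ z 1 = 0}) := by
      refine (convex_ball c' r).inter ?_
      rintro a ⟨ha, ha'⟩ b ⟨hb, hb'⟩ s t _ _ _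
      constructor
      · show (s • a + t • b) 0 = 0
        simp [ha, hb]
      · show (s • a + t • b) 1 = 0
        simp [ha', hb']
    have hpre : IsPreconnected (Ψ '' (ball c' r ∩ {z : Cm 4 | z 0 = 0 ∧ z 1 = 0})) :=
      hconv.isPreconnected.image Ψ fun z hz => (h.par.cont z hz.1).continuousWithinAt
    refine hpre.subset_connectedComponentIn
      ⟨c', ⟨mem_ball_self h.par.pos, h.par.zero, h.one⟩, rfl⟩ ?_ ⟨z, ⟨hz, h1⟩, rfl⟩
    rintro _ ⟨w, ⟨hw, hw'⟩, rfl⟩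
    exact hSmz h w hw ((h.mem w hw).2 hw')
  · rintro y ⟨hyS, hyV⟩
    refine ⟨hyS, fun hySm => hyV ?_⟩
    obtain ⟨i, hi⟩ := hcomp y hySm
    exact mem_iUnion.2 ⟨i, hi⟩

end Vale.Agent.P277.H335.MM
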